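import Mathlib

open MeasureTheory Set

namespace Vale.Agent.P254L

noncomputable section

/-- Barycentric coordinates of a point of the corner simplex. -/
def sl_lift {d : ℕ} (y : Fin d → ℝ) : Fin (d + 1) → ℝ := Fin.cons (1 - ∑ i, y i) y

/-- The corner simplex. -/
def sl_S (d : ℕ) : Set (Fin d → ℝ) := {y | ∀ i, 0 ≤ sl_lift y i}

/-- Integration over the simplex in barycentric coordinates. -/
def sl_int (d : ℕ) (G : (Fin (d + 1) → ℝ) → ℝ) : ℝ := ∫ y in sl_S d, G (sl_lift y)

/-- The barycentre in barycentric coordinates. -/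
def sl_c (m : ℕ) : Fin m → ℝ := fun _ => (m : ℝ)⁻¹

variable {d : ℕ}

lemma sl_lift_sum (y : Fin d → ℝ) : ∑ i, sl_lift y i = 1 := by
  simp [sl_lift, Fin.sum_univ_succ]

lemma sl_lift_tail (l : Fin (d + 1) → ℝ) (hl : ∑ i, l i = 1) : sl_lift (Fin.tail l) = l := by
  funext i
  refine Fin.cases ?_ (fun j => ?_) i
  · simp only [sl_lift, Fin.cons_zero, Fin.tail]
    rw [Fin.sum_univ_succ] at hl
    linarith
  · simp [sl_lift, Fin.tail]

lemma sl_lift_cont : Continuous (sl_lift : (Fin d → ℝ) → _) := by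
  unfold sl_lift; fun_prop

lemma sl_lift_le_one {y : Fin d → ℝ} (hy : y ∈ sl_S d) (i : Fin (d + 1)) : sl_lift y i ≤ 1 :=
  (sl_lift_sum y) ▸ Finset.single_le_sum (fun j _ => hy j) (Finset.mem_univ i)

lemma sl_S_sub : sl_S d ⊆ Icc (0 : Fin d → ℝ) 1 := by
  intro y hy
  refine ⟨fun i => ?_, fun i => ?_⟩
  · have := hy i.succ; simpa [sl_lift] using this
  · have := sl_lift_le_one hy i.succ; simpa [sl_lift] using this

lemma sl_S_closed : IsClosed (sl_S d) := by
  simp only [sl_S, Set.ofPred_forall]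
  exact isClosed_iInter fun i => isClosed_le continuous_const
    ((continuous_apply i).comp sl_lift_cont)

lemma sl_S_compact : IsCompact (sl_S d) := isCompact_Icc.of_isClosed_subset sl_S_closed sl_S_sub

lemma sl_S_meas : MeasurableSet (sl_S d) := sl_S_closed.measurableSet

lemma sl_S_finite : volume (sl_S d) < ⊤ := sl_S_compact.measure_lt_top

lemma sl_lift_center : sl_lift (fun _ : Fin d => ((d + 1 : ℕ) : ℝ)⁻¹) = sl_c (d + 1) := by
  refine (congrArg sl_lift (show (fun _ : Fin d => ((d + 1 : ℕ) : ℝ)⁻¹) = Fin.tail (sl_c (d + 1))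
    from rfl)).trans (sl_lift_tail _ ?_)
  simp [sl_c]
  field_simp

lemma sl_S_open_pos : IsOpen {y : Fin d → ℝ | ∀ i, 0 < sl_lift y i} := by
  simp only [Set.ofPred_forall]
  exact isOpen_iInter_of_finite fun i => isOpen_lt continuous_const
    ((continuous_apply i).comp sl_lift_cont)

lemma sl_vol_pos : 0 < volume.real (sl_S d) := by
  refine ENNReal.toReal_pos (ne_of_gt ?_) sl_S_finite.ne
  refine lt_of_lt_of_le (sl_S_open_pos.measure_pos volume ⟨fun _ => ((d + 1 : ℕ) : ℝ)⁻¹, ?_⟩)
    (measure_mono fun y hy i => (hy i).le)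
  intro i; rw [sl_lift_center]; simp [sl_c]; positivity

lemma sl_int_integrable {G : (Fin (d + 1) → ℝ) → ℝ} (hG : Continuous G) :
    IntegrableOn (fun y => G (sl_lift y)) (sl_S d) :=
  (hG.comp sl_lift_cont).continuousOn.integrableOn_compact sl_S_compact

lemma sl_int_congr {G H : (Fin (d + 1) → ℝ) → ℝ}
    (h : ∀ l, (∀ i, 0 ≤ l i) → ∑ i, l i = 1 → G l = H l) : sl_int d G = sl_int d H :=
  setIntegral_congr_fun sl_S_meas fun y hy => h _ hy (sl_lift_sum y)

lemma sl_int_mono {G H : (Fin (d + 1) → ℝ) → ℝ} (hG : Continuous G) (hH : Continuous H)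
    (h : ∀ l, (∀ i, 0 ≤ l i) → ∑ i, l i = 1 → G l ≤ H l) : sl_int d G ≤ sl_int d H :=
  setIntegral_mono_on (sl_int_integrable hG) (sl_int_integrable hH) sl_S_meas
    fun y hy => h _ hy (sl_lift_sum y)

lemma sl_int_add {G H : (Fin (d + 1) → ℝ) → ℝ} (hG : Continuous G) (hH : Continuous H) :
    sl_int d (fun l => G l + H l) = sl_int d G + sl_int d H :=
  integral_add (sl_int_integrable hG) (sl_int_integrable hH)

lemma sl_int_sub {G H : (Fin (d + 1) → ℝ) → ℝ} (hG : Continuous G) (hH : Continuous H) :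
    sl_int d (fun l => G l - H l) = sl_int d G - sl_int d H :=
  integral_sub (sl_int_integrable hG) (sl_int_integrable hH)

lemma sl_int_mul (a : ℝ) (G : (Fin (d + 1) → ℝ) → ℝ) :
    sl_int d (fun l => a * G l) = a * sl_int d G :=
  integral_const_mul a _

lemma sl_int_sum {ι : Type*} (s : Finset ι) (G : ι → (Fin (d + 1) → ℝ) → ℝ)
    (hG : ∀ i ∈ s, Continuous (G i)) :
    sl_int d (fun l => ∑ i ∈ s, G i l) = ∑ i ∈ s, sl_int d (G i) :=
  integral_finsetSum s fun i hi => sl_int_integrable (hG i hi)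

lemma sl_int_const (a : ℝ) : sl_int d (fun _ => a) = volume.real (sl_S d) * a := by
  rw [sl_int, setIntegral_const, smul_eq_mul]

/-- The linear part of a permutation of barycentric coordinates. -/
def sl_permLin (σ : Equiv.Perm (Fin (d + 1))) : (Fin d → ℝ) →ₗ[ℝ] (Fin d → ℝ) where
  toFun y i := (Fin.cons (-∑ j, y j) y : Fin (d + 1) → ℝ) (σ i.succ)
  map_add' x y := by
    funext i
    simp only [Pi.add_apply]
    generalize σ i.succ = k
    refine Fin.cases ?_ (fun j => ?_) k <;> simp [Finset.sum_add_distrib]; ring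
  map_smul' a x := by
    funext i
    simp only [RingHom.id_apply, Pi.smul_apply]
    generalize σ i.succ = k
    refine Fin.cases ?_ (fun j => ?_) k <;> simp [Finset.mul_sum]

lemma sl_permLin_comp (σ τ : Equiv.Perm (Fin (d + 1))) :
    (sl_permLin σ).comp (sl_permLin τ) = sl_permLin (τ * σ) := by
  refine LinearMap.ext fun y => funext fun i => ?_
  have key : ∀ k, (Fin.cons (-∑ j, sl_permLin τ y j) (sl_permLin τ y) : Fin (d + 1) → ℝ) k
      = (Fin.cons (-∑ j, y j) y : Fin (d + 1) → ℝ) (τ k) := by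
    intro k
    refine Fin.cases ?_ (fun j => ?_) k
    · have h0 : ∑ k, (Fin.cons (-∑ j, y j) y : Fin (d + 1) → ℝ) (τ k) = 0 := by
        rw [Equiv.sum_comp τ]; simp [Fin.sum_univ_succ]
      rw [Fin.sum_univ_succ] at h0
      simp only [Fin.cons_zero]
      have e : ∑ j, sl_permLin τ y j
          = ∑ j : Fin d, (Fin.cons (-∑ j, y j) y : Fin (d + 1) → ℝ) (τ j.succ) := rfl
      linarith
    · simp [sl_permLin]
  exact key (σ i.succ)

lemma sl_permLin_one : sl_permLin (1 : Equiv.Perm (Fin (d + 1))) = LinearMap.id := by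
  refine LinearMap.ext fun y => funext fun i => ?_
  simp [sl_permLin]

lemma sl_permLin_det (σ : Equiv.Perm (Fin (d + 1))) : |LinearMap.det (sl_permLin σ)| = 1 := by
  have hpow : ∀ k : ℕ, LinearMap.det (sl_permLin σ) ^ k = LinearMap.det (sl_permLin (σ ^ k)) := by
    intro k
    induction k with
    | zero => simp [sl_permLin_one]
    | succ k ih =>
      rw [pow_succ', pow_succ, ih, ← LinearMap.det_comp, sl_permLin_comp]
  have h := hpow (orderOf σ)
  rw [pow_orderOf_eq_one, sl_permLin_one, LinearMap.det_id] at h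
  exact (pow_eq_one_iff_of_nonneg (abs_nonneg _) (orderOf_pos σ).ne').1 (by rw [pow_abs, h, abs_one])

/-- A permutation of barycentric coordinates, in the chart. -/
def sl_permMap (σ : Equiv.Perm (Fin (d + 1))) (y : Fin d → ℝ) : Fin d → ℝ :=
  fun i => sl_lift y (σ i.succ)

lemma sl_lift_permMap (σ : Equiv.Perm (Fin (d + 1))) (y : Fin d → ℝ) :
    sl_lift (sl_permMap σ y) = sl_lift y ∘ σ :=
  sl_lift_tail (sl_lift y ∘ σ) (by rw [show ∑ i, (sl_lift y ∘ σ) i = ∑ i, sl_lift y i from
    Equiv.sum_comp σ (sl_lift y)]; exact sl_lift_sum y)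

lemma sl_permMap_preserving (σ : Equiv.Perm (Fin (d + 1))) :
    MeasurePreserving (sl_permMap σ) volume volume := by
  have e : sl_permMap σ = fun y => sl_permLin σ y + sl_permMap σ 0 := by
    funext y i
    simp only [sl_permMap, Pi.add_apply, sl_permLin, LinearMap.coe_mk, AddHom.coe_mk]
    generalize σ i.succ = k
    refine Fin.cases ?_ (fun j => ?_) k <;> simp [sl_lift]; ring
  have h1 : MeasurePreserving (sl_permLin σ) volume volume := by
    refine ⟨(sl_permLin σ).continuous_of_finiteDimensional.measurable, ?_⟩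
    rw [Real.map_linearMap_volume_pi_eq_smul_volume_pi (fun h => by
      have := sl_permLin_det σ; rw [h] at this; simp at this), abs_inv, sl_permLin_det]
    simp
  rw [e]
  exact (measurePreserving_add_right volume _).comp h1

lemma sl_permMap_inv (σ : Equiv.Perm (Fin (d + 1))) (y : Fin d → ℝ) :
    sl_permMap σ⁻¹ (sl_permMap σ y) = y := by
  funext i
  simp [sl_permMap, sl_lift_permMap]
  simp [sl_lift]

lemma sl_int_perm (σ : Equiv.Perm (Fin (d + 1))) (G : (Fin (d + 1) → ℝ) → ℝ) :
    sl_int d (fun l => G (l ∘ σ)) = sl_int d G := by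
  let e : (Fin d → ℝ) ≃ₜ (Fin d → ℝ) :=
    { toFun := sl_permMap σ
      invFun := sl_permMap σ⁻¹
      left_inv := sl_permMap_inv σ
      right_inv := fun y => by simpa using sl_permMap_inv σ⁻¹ y
      continuous_toFun := continuous_pi fun i => (continuous_apply _).comp sl_lift_cont
      continuous_invFun := continuous_pi fun i => (continuous_apply _).comp sl_lift_cont }
  have hpre : sl_permMap σ ⁻¹' sl_S d = sl_S d := by
    ext y
    simp only [mem_preimage, sl_S, mem_ofPred_eq, sl_lift_permMap, Function.comp_apply]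
    exact ⟨fun h i => by simpa using h (σ⁻¹ i), fun h i => h _⟩
  have := (sl_permMap_preserving σ).setIntegral_preimage_emb e.measurableEmbedding
    (fun y => G (sl_lift y)) (sl_S d)
  rw [hpre] at this
  simpa only [sl_int, sl_lift_permMap] using this

/-- Fibre decomposition along the segment through the first two coordinates. -/
lemma sl_int_fibre (G : (Fin (d + 2) → ℝ) → ℝ)
    (hG : IntegrableOn (fun y => G (sl_lift y)) (sl_S (d + 1))) :
    sl_int (d + 1) G = ∫ r in sl_S d, ∫ t in (0:ℝ)..(sl_lift r 0),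
      G (Fin.cons (sl_lift r 0 - t) (Fin.cons t r)) := by
  set H : (Fin (d + 1) → ℝ) → ℝ := (sl_S (d + 1)).indicator (fun y => G (sl_lift y)) with hH
  have hHi : Integrable H := (integrable_indicator_iff sl_S_meas).2 hG
  have hp := (volume_preserving_piFinSuccAbove (fun _ : Fin (d + 1) => ℝ) 0).symm
  have hemb := (MeasurableEquiv.piFinSuccAbove (fun _ : Fin (d + 1) => ℝ) 0).symm.measurableEmbedding
  have e0 : ∀ z : ℝ × (Fin d → ℝ),
      (MeasurableEquiv.piFinSuccAbove (fun _ : Fin (d + 1) => ℝ) 0).symm z = Fin.cons z.1 z.2 := by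
    intro z; simp [MeasurableEquiv.piFinSuccAbove, Fin.consEquiv]
  have hlift : ∀ t (r : Fin d → ℝ),
      sl_lift (Fin.cons t r : Fin (d + 1) → ℝ) = Fin.cons (sl_lift r 0 - t) (Fin.cons t r) := by
    intro t r
    simp only [sl_lift, Fin.cons_zero, Fin.sum_univ_succ, Fin.cons_succ]
    rw [show 1 - (t + ∑ i, r i) = 1 - ∑ i, r i - t by ring]
  have hint : Integrable (fun z : ℝ × (Fin d → ℝ) => H (Fin.cons z.1 z.2)) (volume.prod volume) := by
    have := (hp.integrable_comp_emb hemb (g := H)).2 hHi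
    rw [← Measure.volume_eq_prod]
    simpa only [Function.comp_def, e0] using this
  rw [sl_int, ← integral_indicator sl_S_meas, ← hH, ← hp.integral_comp hemb H]
  simp only [e0]
  rw [Measure.volume_eq_prod, integral_prod_symm _ hint, ← integral_indicator (sl_S_meas (d := d))]
  refine integral_congr_ae (Filter.Eventually.of_forall fun r => ?_)
  by_cases hr : r ∈ sl_S d
  · rw [indicator_of_mem hr, intervalIntegral.integral_of_le (hr 0), ← integral_Icc_eq_integral_Ioc,
      ← integral_indicator measurableSet_Icc]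
    refine integral_congr_ae (Filter.Eventually.of_forall fun t => ?_)
    have hmem : (Fin.cons t r : Fin (d + 1) → ℝ) ∈ sl_S (d + 1) ↔ t ∈ Icc 0 (sl_lift r 0) := by
      show (∀ i, _) ↔ _
      rw [hlift, Fin.forall_fin_succ, Fin.cons_zero, Fin.forall_fin_succ]
      simp only [Fin.cons_succ, Fin.cons_zero, sub_nonneg, mem_Icc]
      refine ⟨fun h => ⟨h.2.1, h.1⟩, fun h => ⟨h.2, h.1, fun i => ?_⟩⟩
      simpa [sl_lift] using hr i.succ
    by_cases ht : t ∈ Icc 0 (sl_lift r 0)
    · simp only [H]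
      rw [indicator_of_mem ht, indicator_of_mem (hmem.2 ht), hlift]
    · simp only [H]
      rw [indicator_of_notMem ht, indicator_of_notMem (mt hmem.1 ht)]
  · rw [indicator_of_notMem hr]
    refine integral_eq_zero_of_ae (Filter.Eventually.of_forall fun t => ?_)
    simp only [H, Pi.zero_apply]
    refine indicator_of_notMem (fun h => hr ?_) _
    intro i
    have h0 := h 0
    rw [hlift, Fin.cons_zero] at h0
    refine Fin.cases ?_ (fun j => ?_) i
    · have h1 := h 1
      rw [hlift] at h1
      simp at h1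
      linarith
    · have h2 := h j.succ.succ
      rw [hlift] at h2
      simpa [sl_lift] using h2

end

end Vale.Agent.P254L
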