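import Vale.Agent.P254L.OneDim
import Vale.Agent.P254L.Simplex

open MeasureTheory Set

namespace Vale.Agent.P254L

noncomputable section

variable {d : ℕ}

/-- Normalised monomial. -/
def sl_mono {m : ℕ} (α : Fin m → ℕ) (l : Fin m → ℝ) : ℝ :=
  ∏ i, l i ^ α i / (α i).factorial

/-- Dirichlet moment functional. -/
def sl_J (U : (Fin (d + 1) → ℝ) → ℝ) (α : Fin (d + 1) → ℕ) : ℝ :=
  sl_int d (fun l => U l * sl_mono α l)

/-- The basic pair functional. -/
def sl_pairGap (U : (Fin (d + 2) → ℝ) → ℝ) : ℝ :=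
  sl_int (d + 1) (fun l => U l * ((l 0 ^ 2 + l 1 ^ 2) / 2 - 2 * (l 0 * l 1)))

lemma sl_mono_cont {m : ℕ} (α : Fin m → ℕ) : Continuous (sl_mono α) := by
  unfold sl_mono; fun_prop

lemma sl_mono_nonneg {m : ℕ} (α : Fin m → ℕ) {l : Fin m → ℝ} (hl : ∀ i, 0 ≤ l i) :
    0 ≤ sl_mono α l := Finset.prod_nonneg fun i _ => by have := hl i; positivity

lemma sl_mono_le_one {m : ℕ} (α : Fin m → ℕ) {l : Fin m → ℝ} (hl : ∀ i, 0 ≤ l i)
    (hl1 : ∀ i, l i ≤ 1) : sl_mono α l ≤ 1 :=
  Finset.prod_le_one (fun i _ => by have := hl i; positivity) fun i _ =>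
    (div_le_self (pow_nonneg (hl i) _) (Nat.one_le_cast.2 (Nat.factorial_pos _))).trans
      (pow_le_one₀ (hl i) (hl1 i))

lemma sl_mono_perm {m : ℕ} (σ : Equiv.Perm (Fin m)) (α : Fin m → ℕ) (l : Fin m → ℝ) :
    sl_mono (α ∘ σ) (l ∘ σ) = sl_mono α l :=
  Equiv.prod_comp σ fun i => l i ^ α i / ((α i).factorial : ℝ)

lemma sl_J_perm (U : (Fin (d + 1) → ℝ) → ℝ) (hs : ∀ (σ : Equiv.Perm (Fin (d + 1))) l, U (l ∘ σ) = U l)
    (σ : Equiv.Perm (Fin (d + 1))) (α : Fin (d + 1) → ℕ) : sl_J U (α ∘ σ) = sl_J U α := by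
  rw [sl_J, ← sl_int_perm σ]
  simp only [hs, sl_mono_perm]
  rfl

lemma sl_convex_cont {m : ℕ} {U : (Fin m → ℝ) → ℝ} (hU : ConvexOn ℝ univ U) : Continuous U :=
  continuousOn_univ.1 (hU.continuousOn isOpen_univ)

lemma sl_fibre_convex {U : (Fin (d + 2) → ℝ) → ℝ} (hU : ConvexOn ℝ univ U) (T : ℝ) (r : Fin d → ℝ) :
    ConvexOn ℝ univ fun t => U (Fin.cons (T - t) (Fin.cons t r)) := by
  refine ⟨convex_univ, fun x _ y _ a b ha hb hab => ?_⟩
  have := hU.2 (mem_univ (Fin.cons (T - x) (Fin.cons x r))) (mem_univ (Fin.cons (T - y) (Fin.cons y r)))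
    ha hb hab
  refine le_of_eq_of_le (congrArg U ?_) this
  funext i
  refine Fin.cases ?_ (fun j => Fin.cases ?_ (fun k => ?_) j) i <;>
    simp only [Fin.cons_zero, Fin.cons_succ, Pi.add_apply, Pi.smul_apply, smul_eq_mul]
  · linear_combination (-T) * hab
  · linear_combination (-(r k)) * hab

lemma sl_telescope (E : ℕ → ℝ) (a r : ℕ) :
    ∑ i ∈ Finset.range r, (E (a + i) - 2 * E (a + i + 1) + E (a + i + 2))
      = E a - E (a + 1) - E (a + r) + E (a + r + 1) := by
  induction r with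
  | zero => simp
  | succ r ih => rw [Finset.sum_range_succ, ih]; simp only [← add_assoc]; ring

lemma sl_pairGap_fibre {U : (Fin (d + 2) → ℝ) → ℝ} (hU : Continuous U) :
    sl_pairGap U = ∫ r in sl_S d, ∫ t in (0:ℝ)..(sl_lift r 0),
      U (Fin.cons (sl_lift r 0 - t) (Fin.cons t r)) * sl_D 0 0 (sl_lift r 0) t := by
  rw [sl_pairGap, sl_int_fibre _ (sl_int_integrable (by fun_prop))]
  refine setIntegral_congr_fun sl_S_meas fun r _ => intervalIntegral.integral_congr fun t _ => ?_
  simp only [sl_D, sl_e, Fin.cons_zero, Fin.cons_one, Nat.factorial]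
  norm_num
  left; ring

/-- One balancing move between the first two exponents. -/
lemma sl_step0 {U : (Fin (d + 2) → ℝ) → ℝ} (hU : ConvexOn ℝ univ U)
    (hs : ∀ (σ : Equiv.Perm (Fin (d + 2))) l, U (l ∘ σ) = U l)
    (q e : ℕ) (R : Fin d → ℕ) :
    0 ≤ sl_J U (Fin.cons (q + e + 2) (Fin.cons q R)) - sl_J U (Fin.cons (q + e + 1) (Fin.cons (q + 1) R)) ∧
    sl_J U (Fin.cons (q + e + 2) (Fin.cons q R)) - sl_J U (Fin.cons (q + e + 1) (Fin.cons (q + 1) R))
      ≤ 4 * (e + 1) * sl_pairGap U := by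
  have Uc := sl_convex_cont hU
  set A : ℕ → ℕ → (Fin (d + 2) → ℕ) := fun i j => Fin.cons i (Fin.cons j R) with hA
  have swapA : ∀ i j, sl_J U (A j i) = sl_J U (A i j) := by
    intro i j
    have := sl_J_perm U hs (Equiv.swap 0 1) (A i j)
    rw [← this]
    congr 1
    funext k
    refine Fin.cases ?_ (fun k' => Fin.cases ?_ (fun k'' => ?_) k') k
    · simp [hA]
    · simp [hA]
    · simp only [Function.comp_apply]
      rw [Equiv.swap_apply_of_ne_of_ne (Fin.succ_ne_zero _) (by simp [Fin.ext_iff])]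
      simp [hA]
  set n := 2 * q + e + 2 with hn
  let E : ℕ → (Fin (d + 2) → ℝ) → ℝ := fun k l =>
    U l * sl_mono (A (n - k) k) l
  have Ec : ∀ k, Continuous (E k) := fun k => Uc.mul (sl_mono_cont _)
  let P : ℕ → (Fin (d + 2) → ℝ) → ℝ := fun k l => E (q + k) l - 2 * E (q + k + 1) l + E (q + k + 2) l
  have Pc : ∀ k, Continuous (P k) := fun k => ((Ec _).sub ((Ec _).const_mul 2)).add (Ec _)
  have hsum : ∑ k ∈ Finset.range (e + 1), sl_int (d + 1) (P k)
      = 2 * (sl_J U (A (q + e + 2) q) - sl_J U (A (q + e + 1) (q + 1))) := by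
    rw [← sl_int_sum _ _ (fun k _ => Pc k)]
    have hg : (fun l => ∑ k ∈ Finset.range (e + 1), P k l)
        = fun l => E q l - E (q + 1) l - E (q + (e + 1)) l + E (q + (e + 1) + 1) l :=
      funext fun l => sl_telescope (fun k => E k l) q (e + 1)
    rw [hg, sl_int_add (G := fun l => E q l - E (q + 1) l - E (q + (e + 1)) l)
        (((Ec _).sub (Ec _)).sub (Ec _)) (Ec _),
      sl_int_sub (G := fun l => E q l - E (q + 1) l) ((Ec _).sub (Ec _)) (Ec _),
      sl_int_sub (Ec _) (Ec _)]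
    have e1 : sl_int (d + 1) (E q) = sl_J U (A (q + e + 2) q) := by
      simp only [E, sl_J]; rw [show n - q = q + e + 2 by omega]
    have e2 : sl_int (d + 1) (E (q + 1)) = sl_J U (A (q + e + 1) (q + 1)) := by
      simp only [E, sl_J]; rw [show n - (q + 1) = q + e + 1 by omega]
    have e3 : sl_int (d + 1) (E (q + (e + 1))) = sl_J U (A (q + e + 1) (q + 1)) := by
      rw [← swapA]; simp only [E, sl_J]
      rw [show n - (q + (e + 1)) = q + 1 by omega, show q + (e + 1) = q + e + 1 by omega]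
    have e4 : sl_int (d + 1) (E (q + (e + 1) + 1)) = sl_J U (A (q + e + 2) q) := by
      rw [← swapA]; simp only [E, sl_J]
      rw [show n - (q + (e + 1) + 1) = q by omega, show q + (e + 1) + 1 = q + e + 2 by omega]
    rw [e1, e2, e3, e4]; ring
  have hk : ∀ k ∈ Finset.range (e + 1),
      0 ≤ sl_int (d + 1) (P k) ∧ sl_int (d + 1) (P k) ≤ 4 * sl_pairGap U := by
    intro k hk
    rw [Finset.mem_range] at hk
    obtain ⟨j, hj⟩ : ∃ j, n = q + k + 2 + j := ⟨n - (q + k + 2), by omega⟩
    have hfib : sl_int (d + 1) (P k) = ∫ r in sl_S d, sl_mono R r *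
        ∫ t in (0:ℝ)..(sl_lift r 0), U (Fin.cons (sl_lift r 0 - t) (Fin.cons t r)) *
          sl_D (q + k) j (sl_lift r 0) t := by
      rw [sl_int_fibre _ (sl_int_integrable (Pc k))]
      refine setIntegral_congr_fun sl_S_meas fun r _ => ?_
      rw [← intervalIntegral.integral_const_mul]
      refine intervalIntegral.integral_congr fun t _ => ?_
      simp only [P, E, hA, sl_mono, sl_D, sl_e, Fin.prod_univ_succ, Fin.cons_zero, Fin.cons_succ]
      rw [show n - (q + k) = j + 2 by omega, show n - (q + k + 1) = j + 1 by omega,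
        show n - (q + k + 2) = j by omega]
      ring
    have hb := fun r (hr : r ∈ sl_S d) => sl_pair_fibre _ (sl_fibre_convex hU (sl_lift r 0) r)
      (q + k) j (hr 0) (sl_lift_le_one hr 0)
      (sl_mono_nonneg R (fun i => (sl_S_sub hr).1 i))
      (sl_mono_le_one R (fun i => (sl_S_sub hr).1 i) (fun i => (sl_S_sub hr).2 i))
    have ci : ∀ i j, Continuous fun r : Fin d → ℝ => ∫ t in (0:ℝ)..(sl_lift r 0),
        U (Fin.cons (sl_lift r 0 - t) (Fin.cons t r)) * sl_D i j (sl_lift r 0) t := by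
      intro i j
      have hc : Continuous fun r : Fin d → ℝ => sl_lift r 0 := (continuous_apply 0).comp sl_lift_cont
      refine intervalIntegral.continuous_parametric_intervalIntegral_of_continuous ?_ hc
      unfold sl_D sl_e
      fun_prop
    refine ⟨?_, ?_⟩
    · rw [hfib]; exact setIntegral_nonneg sl_S_meas fun r hr => (hb r hr).1
    · rw [hfib, sl_pairGap_fibre Uc, ← integral_const_mul]
      exact setIntegral_mono_on (((sl_mono_cont R).mul (ci _ _)).continuousOn.integrableOn_compact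
          sl_S_compact)
        (((ci 0 0).const_mul 4).continuousOn.integrableOn_compact sl_S_compact) sl_S_meas
        fun r hr => (hb r hr).2
  have l0 := Finset.sum_nonneg fun k hk' => (hk k hk').1
  have l1 := Finset.sum_le_sum fun k hk' => (hk k hk').2
  have gp : (0:ℝ) ≤ sl_pairGap U := by
    have := hk 0 (by simp); linarith
  simp only [Finset.sum_const, Finset.card_range, nsmul_eq_mul, Nat.cast_add, Nat.cast_one] at l1
  rw [hsum] at l0 l1
  constructor
  · linarith
  · nlinarith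

/-- Comparison of every Dirichlet moment with the balanced one. -/
lemma sl_descent (K : ℕ) : ∀ (N : ℕ) (α : Fin (d + 2) → ℕ), ∑ i, α i ^ 2 = N →
    ∑ i, α i = (d + 2) * K → ∃ C : ℝ, 0 ≤ C ∧ ∀ U : (Fin (d + 2) → ℝ) → ℝ, ConvexOn ℝ univ U →
      (∀ (σ : Equiv.Perm (Fin (d + 2))) l, U (l ∘ σ) = U l) →
      0 ≤ sl_J U α - sl_J U (fun _ => K) ∧
      sl_J U α - sl_J U (fun _ => K) ≤ C * sl_pairGap U := by
  intro N
  induction N using Nat.strong_induction_on with
  | _ N ih =>
    intro α hN hsum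
    by_cases hbal : α = fun _ => K
    · exact ⟨0, le_rfl, fun U _ _ => by simp [hbal]⟩
    have hex : ∃ a b, α b + 2 ≤ α a := by
      by_contra h
      push Not at h
      apply hbal
      funext i
      rcases lt_trichotomy (α i) K with hlt | heq | hgt
      · have : ∑ j, α j < ∑ _j : Fin (d + 2), K := Finset.sum_lt_sum
          (fun j _ => by have := h j i; omega) ⟨i, Finset.mem_univ i, hlt⟩
        simp at this; omega
      · exact heq
      · have : ∑ _j : Fin (d + 2), K < ∑ j, α j := Finset.sum_lt_sum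
          (fun j _ => by have := h i j; omega) ⟨i, Finset.mem_univ i, hgt⟩
        simp at this; omega
    obtain ⟨a, b, hab⟩ := hex
    have hne : a ≠ b := by rintro rfl; omega
    obtain ⟨σ, hσ0, hσ1⟩ : ∃ σ : Equiv.Perm (Fin (d + 2)), σ 0 = a ∧ σ 1 = b := by
      refine ⟨(Equiv.swap 0 a).trans (Equiv.swap ((Equiv.swap 0 a) 1) b), ?_, ?_⟩
      · simp only [Equiv.trans_apply, Equiv.swap_apply_left]
        refine Equiv.swap_apply_of_ne_of_ne ?_ hne
        intro h
        have := congrArg (Equiv.swap 0 a) h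
        rw [Equiv.swap_apply_self, Equiv.swap_apply_right] at this
        exact absurd this (Fin.zero_ne_one (n := d))
      · simp
    set β := α ∘ σ with hβ
    set R : Fin d → ℕ := fun i => β i.succ.succ with hR
    obtain ⟨e, he⟩ : ∃ e, α a = α b + e + 2 := ⟨α a - α b - 2, by omega⟩
    set β' : Fin (d + 2) → ℕ := Fin.cons (α b + e + 1) (Fin.cons (α b + 1) R) with hβ'
    have hβe : β = Fin.cons (α b + e + 2) (Fin.cons (α b) R) := by
      funext i
      refine Fin.cases ?_ (fun j => Fin.cases ?_ (fun k => ?_) j) i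
      · simp [hβ, hσ0, he]
      · simp [hβ, hσ1]
      · simp [hR]
    have s1 : ∑ i, β i = (d + 2) * K := by rw [← hsum]; exact Equiv.sum_comp σ α
    have s2 : ∑ i, β i ^ 2 = N := by rw [← hN]; exact Equiv.sum_comp σ (fun i => α i ^ 2)
    rw [hβe] at s1 s2
    simp only [Fin.sum_univ_succ, Fin.cons_zero, Fin.cons_succ] at s1 s2
    obtain ⟨C, hC0, hC⟩ := ih (∑ i, β' i ^ 2)
      (by simp only [hβ', Fin.sum_univ_succ, Fin.cons_zero, Fin.cons_succ]; nlinarith)
      β' rfl (by simp only [hβ', Fin.sum_univ_succ, Fin.cons_zero, Fin.cons_succ]; omega)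
    refine ⟨C + 4 * (e + 1), by positivity, fun U hU hs => ?_⟩
    obtain ⟨u1, u2⟩ := sl_step0 hU hs (α b) e R
    obtain ⟨v1, v2⟩ := hC U hU hs
    rw [← hβe, hβ, sl_J_perm U hs] at u1 u2
    rw [← hβ'] at u1 u2
    constructor
    · linarith
    · rw [add_mul]; linarith

lemma sl_pairGap_one : sl_pairGap (fun _ : Fin (d + 2) → ℝ => (1:ℝ)) = 0 := by
  have h : ∀ c : ℝ, 0 ≤ sl_pairGap (fun _ : Fin (d + 2) → ℝ => c) := fun c => by
    rw [sl_pairGap_fibre continuous_const]
    exact setIntegral_nonneg sl_S_meas fun r hr => by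
      simpa using (sl_pair_fibre (fun _ => c) (convexOn_const c convex_univ) 0 0 (T := sl_lift r 0)
        (r := 1) (hr 0) (sl_lift_le_one hr 0) zero_le_one le_rfl).1
  have h1 := h 1
  have h2 := h (-1)
  have e : sl_pairGap (fun _ : Fin (d + 2) → ℝ => (-1:ℝ))
      = - sl_pairGap (fun _ : Fin (d + 2) → ℝ => (1:ℝ)) := by
    simp only [sl_pairGap, sl_int, ← integral_neg]
    exact integral_congr_ae (Filter.Eventually.of_forall fun y => by ring)
  linarith

/-- Every symmetric convex function has mean at most its balanced Dirichlet mean plus gap. -/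
lemma sl_mean_le (K : ℕ) : ∃ C : ℝ, 0 ≤ C ∧ ∀ U : (Fin (d + 2) → ℝ) → ℝ, ConvexOn ℝ univ U →
    (∀ (σ : Equiv.Perm (Fin (d + 2))) l, U (l ∘ σ) = U l) →
    sl_int (d + 1) U * sl_J (fun _ => (1:ℝ)) (fun _ : Fin (d + 2) => K)
      ≤ volume.real (sl_S (d + 1)) * sl_J U (fun _ => K) + C * sl_pairGap U := by
  set D := (d + 2) * K with hD
  set s := Finset.piAntidiag (Finset.univ : Finset (Fin (d + 2))) D with hs'
  have mem : ∀ α ∈ s, ∑ i, α i = (d + 2) * K := fun α hα => (Finset.mem_piAntidiag.1 hα).1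
  have key : ∀ U : (Fin (d + 2) → ℝ) → ℝ, Continuous U →
      sl_int (d + 1) U = (D.factorial : ℝ) * ∑ α ∈ s, sl_J U α := by
    intro U hU
    rw [Finset.mul_sum]
    simp only [sl_J, ← sl_int_mul]
    rw [← sl_int_sum s (fun α l => (D.factorial : ℝ) * (U l * sl_mono α l))
      (fun α _ => (hU.mul (sl_mono_cont α)).const_mul _)]
    refine sl_int_congr fun l _ hl => ?_
    have hp := Finset.sum_pow_eq_sum_piAntidiag (R := ℝ) Finset.univ l D
    rw [hl, one_pow] at hp
    calc U l = U l * 1 := (mul_one _).symm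
      _ = _ := by
        rw [hp, Finset.mul_sum]
        refine Finset.sum_congr rfl fun α hα => ?_
        have hm := Nat.multinomial_spec (s := (Finset.univ : Finset (Fin (d + 2)))) (f := α)
        rw [mem α hα, ← hD] at hm
        rw [← hm, sl_mono, Finset.prod_div_distrib, Nat.cast_mul, Nat.cast_prod]
        have : (∏ i, ((α i).factorial : ℝ)) ≠ 0 :=
          Finset.prod_ne_zero_iff.2 fun i _ => Nat.cast_ne_zero.2 (Nat.factorial_ne_zero _)
        field_simp
  choose! C C0 hC using fun α (hα : α ∈ s) => sl_descent (d := d) K _ α rfl (mem α hα)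
  set a := sl_J (fun _ => (1:ℝ)) (fun _ : Fin (d + 2) => K) with ha
  have hone : ∀ α ∈ s, sl_J (fun _ => (1:ℝ)) α = a := by
    intro α hα
    obtain ⟨p, q⟩ := hC α hα (fun _ => 1) (convexOn_const 1 convex_univ) (fun _ _ => rfl)
    rw [sl_pairGap_one, mul_zero] at q
    linarith
  have hV : volume.real (sl_S (d + 1)) = (D.factorial : ℝ) * (s.card * a) := by
    rw [← mul_one (volume.real (sl_S (d + 1))), ← sl_int_const, key _ continuous_const,
      Finset.sum_congr rfl hone, Finset.sum_const, nsmul_eq_mul]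
  have a0 : 0 ≤ a := by
    have := sl_int_mono (d := d + 1) (G := fun _ => 0) (H := fun l => 1 * sl_mono (fun _ : Fin (d + 2) => K) l)
      continuous_const ((sl_mono_cont _).const_mul 1) (fun l hl _ => by
        simpa using sl_mono_nonneg _ hl)
    rw [sl_int_const, mul_zero] at this
    exact this
  refine ⟨(D.factorial : ℝ) * (∑ α ∈ s, C α) * a, mul_nonneg (mul_nonneg (by positivity)
    (Finset.sum_nonneg C0)) a0, fun U hU hs => ?_⟩
  have h := Finset.sum_le_sum fun α hα => (hC α hα U hU hs).2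
  rw [Finset.sum_sub_distrib, Finset.sum_const, nsmul_eq_mul, ← Finset.sum_mul] at h
  rw [key U (sl_convex_cont hU), hV]
  have hh := mul_le_mul_of_nonneg_left h (mul_nonneg (Nat.cast_nonneg D.factorial) a0)
  nlinarith

/-- The convexity functional of a symmetric function in terms of the pair functional. -/
lemma sl_gap_eq {U : (Fin (d + 2) → ℝ) → ℝ} (hU : Continuous U)
    (hs : ∀ (σ : Equiv.Perm (Fin (d + 2))) l, U (l ∘ σ) = U l) :
    sl_int (d + 1) (fun l => U l * ((d + 3 : ℝ) * ∑ i, l i ^ 2 - 2))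
      = (d + 2 : ℝ) * (d + 1) * sl_pairGap U := by
  set I2 := sl_int (d + 1) (fun l => U l * (l 0 * l 0)) with hI2
  set I11 := sl_int (d + 1) (fun l => U l * (l 0 * l 1)) with hI11
  have hp : ∀ (σ : Equiv.Perm (Fin (d + 2))) (i j : Fin (d + 2)),
      sl_int (d + 1) (fun l => U l * (l (σ i) * l (σ j)))
        = sl_int (d + 1) (fun l => U l * (l i * l j)) := by
    intro σ i j
    rw [← sl_int_perm σ (fun l => U l * (l i * l j))]
    simp [hs]
  have hd : ∀ i, sl_int (d + 1) (fun l => U l * (l i * l i)) = I2 := fun i => by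
    have := hp (Equiv.swap 0 i) 0 0
    rwa [Equiv.swap_apply_left] at this
  have ho : ∀ i j, i ≠ j → sl_int (d + 1) (fun l => U l * (l i * l j)) = I11 := by
    intro i j hij
    have := hp ((Equiv.swap 0 i).trans (Equiv.swap ((Equiv.swap 0 i) 1) j)) 0 1
    rw [Equiv.trans_apply, Equiv.trans_apply, Equiv.swap_apply_left, Equiv.swap_apply_left,
      Equiv.swap_apply_of_ne_of_ne ?_ hij] at this
    · exact this
    · intro h
      have := congrArg (Equiv.swap 0 i) h
      rw [Equiv.swap_apply_self, Equiv.swap_apply_right] at this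
      exact absurd this (Fin.zero_ne_one (n := d))
  have htot : sl_int (d + 1) U = (d + 2 : ℝ) * I2 + (d + 2 : ℝ) * (d + 1) * I11 := by
    have e : sl_int (d + 1) U = sl_int (d + 1) (fun l => ∑ i, ∑ j, U l * (l i * l j)) := by
      refine sl_int_congr fun l _ hl => ?_
      rw [Finset.sum_congr rfl fun i _ => (Finset.mul_sum Finset.univ (fun j => l i * l j) (U l)).symm,
        ← Finset.mul_sum, ← Finset.sum_mul_sum, hl]
      ring
    rw [e, sl_int_sum _ _ (fun i _ => by fun_prop)]
    rw [Finset.sum_congr rfl (fun i _ => sl_int_sum _ _ (fun j _ => by fun_prop))]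
    have r : ∀ i : Fin (d + 2), ∑ j, sl_int (d + 1) (fun l => U l * (l i * l j))
        = I2 + (d + 1) * I11 := by
      intro i
      rw [← Finset.add_sum_erase _ _ (Finset.mem_univ i), hd i,
        Finset.sum_congr rfl (fun j hj => ho i j (Finset.ne_of_mem_erase hj).symm)]
      simp
    rw [Finset.sum_congr rfl (fun i _ => r i)]
    simp; ring
  have hgap : sl_pairGap U = I2 - 2 * I11 := by
    rw [sl_pairGap, show (fun l : Fin (d + 2) → ℝ => U l * ((l 0 ^ 2 + l 1 ^ 2) / 2 - 2 * (l 0 * l 1)))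
        = fun l => (1/2) * (U l * (l 0 * l 0)) + (1/2) * (U l * (l 1 * l 1)) + (-2) * (U l * (l 0 * l 1))
        from funext fun l => by ring,
      sl_int_add (by fun_prop) (by fun_prop), sl_int_add (by fun_prop) (by fun_prop),
      sl_int_mul, sl_int_mul, sl_int_mul, hd 0, hd 1]
    ring
  rw [show (fun l : Fin (d + 2) → ℝ => U l * ((d + 3 : ℝ) * ∑ i, l i ^ 2 - 2))
      = fun l => (d + 3 : ℝ) * (∑ i, U l * (l i * l i)) - 2 * U l from funext fun l => by
        rw [mul_sub, Finset.mul_sum, Finset.mul_sum, Finset.mul_sum]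
        congr 1
        · exact Finset.sum_congr rfl fun i _ => by ring
        · ring,
    sl_int_sub (by fun_prop) (by fun_prop), sl_int_mul, sl_int_mul, sl_int_sum _ _ (fun i _ => by fun_prop),
    Finset.sum_congr rfl (fun i _ => hd i), htot, hgap]
  simp; ring

end

end Vale.Agent.P254L
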