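import Vale.Agent.P254L.Kappa

open MeasureTheory Set

namespace Vale.Agent.P254L

noncomputable section

variable {d : ℕ}

/-- The linear part of the chart of the cone over the first facet. -/
def sl_coneLin (d : ℕ) : (Fin d → ℝ) →ₗ[ℝ] (Fin d → ℝ) where
  toFun z i := z i - (∑ j, z j) / (d + 1)
  map_add' x y := by funext i; simp [Finset.sum_add_distrib]; ring
  map_smul' a x := by funext i; simp [← Finset.mul_sum]; ring

lemma sl_coneLin_inj (d : ℕ) : Function.Injective (sl_coneLin d) := by
  refine (injective_iff_map_eq_zero _).2 fun z hz => ?_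
  have h : ∀ i, z i = (∑ j, z j) / (d + 1) := fun i => by
    have := congrFun hz i; simp [sl_coneLin] at this; linarith
  have hs : ∑ j, z j = (d : ℝ) * ((∑ j, z j) / (d + 1)) := by
    conv_lhs => rw [Finset.sum_congr rfl (fun i _ => h i)]
    simp
  have hs0 : ∑ j, z j = 0 := by field_simp at hs; linarith
  funext i; rw [h i, hs0]; simp

/-- The chart of the cone over the first facet. -/
def sl_cone (d : ℕ) (z : Fin d → ℝ) : Fin d → ℝ :=
  fun i => z i + (1 - ∑ j, z j) / (d + 1)

lemma sl_lift_cone (z : Fin d → ℝ) :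
    sl_lift (sl_cone d z) = fun k => (1 - ∑ j, z j) / (d + 1) + (Fin.cons 0 z : Fin (d + 1) → ℝ) k := by
  funext k
  refine Fin.cases ?_ (fun j => ?_) k
  · simp [sl_lift, sl_cone, Finset.sum_add_distrib]; field_simp; ring
  · simp [sl_lift, sl_cone]; ring

lemma sl_cone_image : sl_cone d '' sl_S d = {x ∈ sl_S d | ∀ i, sl_lift x 0 ≤ sl_lift x i} := by
  ext x
  constructor
  · rintro ⟨z, hz, rfl⟩
    have h0 : 0 ≤ (1 - ∑ j, z j) / ((d : ℝ) + 1) := by
      have := hz 0; simp [sl_lift] at this
      exact div_nonneg (by linarith) (by positivity)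
    have h1 : ∀ k, 0 ≤ (Fin.cons 0 z : Fin (d + 1) → ℝ) k := fun k => by
      refine Fin.cases ?_ (fun j => ?_) k
      · simp
      · simpa using (sl_S_sub hz).1 j
    refine ⟨fun k => ?_, fun k => ?_⟩
    · rw [sl_lift_cone]; exact add_nonneg h0 (h1 k)
    · rw [sl_lift_cone]; simpa using h1 k
  · rintro ⟨hx, hmin⟩
    set l0 := sl_lift x 0 with hl0
    have hs : ∑ j, (x j - l0) = 1 - (d + 1) * l0 := by
      simp [Finset.sum_sub_distrib, hl0, sl_lift]; ring
    refine ⟨fun i => x i - l0, fun k => ?_, ?_⟩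
    · refine Fin.cases ?_ (fun j => ?_) k
      · simp only [sl_lift, Fin.cons_zero]; rw [hs]; nlinarith [hx 0]
      · have := hmin j.succ; simp [sl_lift] at this ⊢; simpa [sl_lift, hl0] using this
    · funext i; simp only [sl_cone]; rw [hs]; field_simp; ring

lemma sl_cone_cov : ∃ A : ℝ, 0 < A ∧ ∀ g : (Fin d → ℝ) → ℝ,
    ∫ x in sl_cone d '' sl_S d, g x = A * ∫ z in sl_S d, g (sl_cone d z) := by
  set L := (sl_coneLin d).toContinuousLinearMap with hL
  refine ⟨|L.det|, abs_pos.2 ?_, fun g => ?_⟩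
  · intro h
    have hu : IsUnit (LinearMap.det (sl_coneLin d)) := by
      have := (LinearEquiv.ofBijective (sl_coneLin d)
        ⟨sl_coneLin_inj d, LinearMap.surjective_of_injective (sl_coneLin_inj d)⟩).isUnit_det'
      exact this
    exact hu.ne_zero h
  have hd : ∀ z, sl_cone d z = L z + fun _ => ((d : ℝ) + 1)⁻¹ := fun z => by
    funext i; simp [sl_cone, hL, sl_coneLin]; ring
  have hder : ∀ z ∈ sl_S d, HasFDerivWithinAt (sl_cone d) L (sl_S d) z := fun z _ => by
    rw [funext hd]; exact (L.hasFDerivAt.add_const (fun _ : Fin d => ((d : ℝ) + 1)⁻¹)).hasFDerivWithinAt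
  have hinj : InjOn (sl_cone d) (sl_S d) := fun a _ b _ h => by
    rw [hd, hd] at h
    exact sl_coneLin_inj d (add_right_cancel h)
  rw [integral_image_eq_integral_abs_det_fderiv_smul volume sl_S_meas hder hinj]
  simp only [smul_eq_mul, integral_const_mul]

/-- Polar decomposition of the corner simplex along its outer facet. -/
lemma sl_polar (h : (Fin (d + 1) → ℝ) → ℝ) (hm : Measurable h) {M : ℝ}
    (hb : ∀ z ∈ sl_S (d + 1), |h z| ≤ M) :
    ∫ z in sl_S (d + 1), h z
      = ∫ s in (0:ℝ)..1, s ^ d * ∫ y in sl_S d, h (s • sl_lift y) := by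
  have hi : IntegrableOn h (sl_S (d + 1)) :=
    IntegrableOn.of_bound sl_S_finite hm.aestronglyMeasurable M
      ((ae_restrict_iff' sl_S_meas).2 (Filter.Eventually.of_forall fun z hz => hb z hz))
  have e := sl_int_fibre (d := d) (fun l => h (Fin.tail l))
    (by simpa [sl_lift, Fin.tail_cons] using hi)
  simp only [sl_int, sl_lift, Fin.tail_cons, Fin.cons_zero] at e
  rw [e]
  set Z : Set ((Fin d → ℝ) × ℝ) := {p | (∀ i, 0 ≤ p.1 i) ∧ ∑ i, p.1 i ≤ p.2 ∧ p.2 ≤ 1} with hZ
  set F : (Fin d → ℝ) × ℝ → ℝ :=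
    Z.indicator (fun p => h (Fin.cons (p.2 - ∑ i, p.1 i) p.1)) with hF
  have Zc : IsClosed Z := by
    simp only [hZ, Set.ofPred_and, Set.ofPred_forall]
    exact (isClosed_iInter fun i => isClosed_le continuous_const (by fun_prop)).inter
      ((isClosed_le (by fun_prop) continuous_snd).inter (isClosed_le continuous_snd continuous_const))
  have Zsub : Z ⊆ sl_S d ×ˢ Icc (0:ℝ) 1 := by
    rintro ⟨r, s⟩ ⟨h1, h2, h3⟩
    refine ⟨fun k => ?_, (Finset.sum_nonneg fun i _ => h1 i).trans h2, h3⟩
    refine Fin.cases ?_ (fun j => ?_) k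
    · simp [sl_lift]; linarith
    · simpa [sl_lift] using h1 j
  have hFi : Integrable F (volume.prod volume) := by
    rw [hF, integrable_indicator_iff Zc.measurableSet]
    refine IntegrableOn.of_bound ?_ ((hm.comp ?_).aestronglyMeasurable) M ?_
    · refine lt_of_le_of_lt (measure_mono Zsub) ?_
      rw [Measure.prod_prod]
      exact ENNReal.mul_lt_top sl_S_finite measure_Icc_lt_top
    · exact (show Continuous (fun p : (Fin d → ℝ) × ℝ =>
        (Fin.cons (p.2 - ∑ i, p.1 i) p.1 : Fin (d + 1) → ℝ)) by fun_prop).measurable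
    · refine (ae_restrict_iff' Zc.measurableSet).2 (Filter.Eventually.of_forall ?_)
      rintro ⟨r, s⟩ ⟨h1, h2, h3⟩
      refine hb _ fun k => ?_
      simp only [sl_lift]
      refine Fin.cases ?_ (fun j => ?_) k
      · simp [Fin.sum_univ_succ]; linarith
      · refine Fin.cases ?_ (fun i => ?_) j
        · simp; linarith
        · simpa using h1 i
  have lhs : (∫ r in sl_S d, ∫ t in (0:ℝ)..(1 - ∑ i, r i), h (Fin.cons t r))
      = ∫ r, ∫ s, F (r, s) := by
    rw [← integral_indicator (sl_S_meas (d := d))]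
    refine integral_congr_ae (Filter.Eventually.of_forall fun r => ?_)
    by_cases hr : r ∈ sl_S d
    · rw [indicator_of_mem hr]
      have := intervalIntegral.integral_comp_sub_right (fun t => h (Fin.cons t r)) (∑ i, r i)
        (a := ∑ i, r i) (b := 1)
      rw [sub_self] at this
      rw [← this, intervalIntegral.integral_of_le (by have := hr 0; simp [sl_lift] at this; linarith),
        ← integral_Icc_eq_integral_Ioc, ← integral_indicator measurableSet_Icc]
      refine integral_congr_ae (Filter.Eventually.of_forall fun s => ?_)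
      have hiff : (r, s) ∈ Z ↔ s ∈ Icc (∑ i, r i) 1 :=
        ⟨fun hh => hh.2, fun hh => ⟨fun i => (sl_S_sub hr).1 i, hh⟩⟩
      by_cases hs : s ∈ Icc (∑ i, r i) 1
      · simp only [hF]; rw [indicator_of_mem hs, indicator_of_mem (hiff.2 hs)]
      · simp only [hF]; rw [indicator_of_notMem hs, indicator_of_notMem (mt hiff.1 hs)]
    · rw [indicator_of_notMem hr]
      refine (integral_eq_zero_of_ae (Filter.Eventually.of_forall fun s => ?_)).symm
      simp only [hF, Pi.zero_apply]
      exact indicator_of_notMem (fun hh => hr (Zsub hh).1) _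
  rw [lhs, integral_integral_swap (f := fun r s => F (r, s)) (show Integrable (fun p : (Fin d → ℝ) × ℝ => F (p.1, p.2)) (volume.prod volume) from hFi),
    intervalIntegral.integral_of_le zero_le_one, ← integral_indicator measurableSet_Ioc]
  refine integral_congr_ae ?_
  filter_upwards [Measure.ae_ne volume (0:ℝ)] with s hs0
  by_cases hs : s ∈ Ioc (0:ℝ) 1
  · rw [indicator_of_mem hs]
    have key : ∀ y : Fin d → ℝ, F (s • y, s) = (sl_S d).indicator (fun y => h (s • sl_lift y)) y := by
      intro y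
      have hiff : (s • y, s) ∈ Z ↔ y ∈ sl_S d := by
        simp only [hZ, mem_ofPred_eq, Pi.smul_apply, smul_eq_mul, ← Finset.mul_sum]
        constructor
        · rintro ⟨a1, a2, -⟩ k
          refine Fin.cases ?_ (fun j => ?_) k
          · simp [sl_lift]; nlinarith [hs.1]
          · simpa [sl_lift] using nonneg_of_mul_nonneg_right (a1 j) hs.1
        · intro hy
          have := hy 0; simp [sl_lift] at this
          exact ⟨fun i => mul_nonneg hs.1.le ((sl_S_sub hy).1 i), by nlinarith [hs.1], hs.2⟩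
      by_cases hy : y ∈ sl_S d
      · simp only [hF]; rw [indicator_of_mem (hiff.2 hy), indicator_of_mem hy]
        congr 1
        funext k
        refine Fin.cases ?_ (fun j => ?_) k <;> simp [sl_lift, ← Finset.mul_sum]; ring
      · simp only [hF]; rw [indicator_of_notMem (mt hiff.1 hy), indicator_of_notMem hy]
    have := Measure.integral_comp_smul (volume : Measure (Fin d → ℝ)) (fun r => F (r, s)) s
    simp only [key, Module.finrank_fintype_fun_eq_card, Fintype.card_fin, smul_eq_mul] at this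
    rw [integral_indicator sl_S_meas] at this
    rw [this, abs_inv, abs_of_pos (pow_pos hs.1 d), ← mul_assoc,
      mul_inv_cancel₀ (pow_pos hs.1 d).ne', one_mul]
  · rw [indicator_of_notMem hs]
    refine integral_eq_zero_of_ae (Filter.Eventually.of_forall fun r => ?_)
    simp only [hF, Pi.zero_apply]
    refine indicator_of_notMem (fun hh => hs ?_) _
    have := (Zsub hh).2
    exact ⟨lt_of_le_of_ne this.1 (Ne.symm hs0), this.2⟩

/-- Two barycentric coordinates agree only on a null set. -/
lemma sl_tie_null (a b : Fin (d + 2)) (hab : a ≠ b) :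
    volume {y ∈ sl_S (d + 1) | sl_lift y a = sl_lift y b} = 0 := by
  set σ : Equiv.Perm (Fin (d + 2)) := (Equiv.swap 0 a).trans (Equiv.swap ((Equiv.swap 0 a) 1) b) with hσ
  have s1 : σ 1 = b := by simp [hσ]
  have s0 : σ 0 = a := by
    simp only [hσ, Equiv.trans_apply, Equiv.swap_apply_left]
    refine Equiv.swap_apply_of_ne_of_ne ?_ hab
    intro h
    have := congrArg (Equiv.swap 0 a) h
    rw [Equiv.swap_apply_self, Equiv.swap_apply_right] at this
    exact absurd this (Fin.zero_ne_one (n := d))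
  let E : Set (Fin (d + 2) → ℝ) := {l | l 0 = l 1}
  have hset : {y ∈ sl_S (d + 1) | sl_lift y a = sl_lift y b} = {y | sl_lift y ∘ σ ∈ E} ∩ sl_S (d + 1) := by
    ext y; simp [E, s0, s1, and_comm]
  have hm : MeasurableSet {y : Fin (d + 1) → ℝ | sl_lift y ∈ E} :=
    (isClosed_eq ((continuous_apply 0).comp sl_lift_cont) ((continuous_apply 1).comp sl_lift_cont)).measurableSet
  have hm' : MeasurableSet {y : Fin (d + 1) → ℝ | sl_lift y ∘ σ ∈ E} :=
    (isClosed_eq ((continuous_apply _).comp sl_lift_cont) ((continuous_apply _).comp sl_lift_cont)).measurableSet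
  have hz : sl_int (d + 1) (fun l => E.indicator (fun _ => (1:ℝ)) (l ∘ σ)) = 0 := by
    rw [sl_int_perm σ, sl_int_fibre]
    · refine integral_eq_zero_of_ae ((ae_restrict_iff' sl_S_meas).2 (Filter.Eventually.of_forall fun r hr => ?_))
      simp only [Pi.zero_apply]
      rw [intervalIntegral.integral_of_le (hr 0)]
      refine integral_eq_zero_of_ae (ae_restrict_of_ae ?_)
      filter_upwards [Measure.ae_ne volume (sl_lift r 0 / 2)] with t ht
      refine indicator_of_notMem (fun h => ht ?_) _
      simp [E] at h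
      linarith
    · have : (fun y : Fin (d + 1) → ℝ => E.indicator (fun _ => (1:ℝ)) (sl_lift y))
          = {y | sl_lift y ∈ E}.indicator fun _ => 1 := by funext y; rfl
      rw [this]
      exact (integrableOn_const sl_S_finite.ne).indicator hm
  have e : (fun y : Fin (d + 1) → ℝ => E.indicator (fun _ => (1:ℝ)) (sl_lift y ∘ σ))
      = {y | sl_lift y ∘ σ ∈ E}.indicator fun _ => 1 := by funext y; rfl
  rw [sl_int, e, setIntegral_indicator hm', setIntegral_const, smul_eq_mul, mul_one, inter_comm,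
    measureReal_eq_zero_iff (ne_top_of_le_ne_top sl_S_finite.ne (measure_mono inter_subset_right))] at hz
  rwa [hset]

/-- Decomposition of the simplex into the cones over its facets. -/
lemma sl_cone_decomp : ∃ A : ℝ, 0 < A ∧ ∀ H : (Fin (d + 2) → ℝ) → ℝ, Measurable H →
    ∀ M : ℝ, (∀ l, (∀ i, 0 ≤ l i) → ∑ i, l i = 1 → |H l| ≤ M) →
    sl_int (d + 1) H = A * ∑ a, ∫ s in (0:ℝ)..1, s ^ d * ∫ y in sl_S d,
      H ((fun k => (1 - s) * ((d : ℝ) + 2)⁻¹ + s * (Fin.cons 0 (sl_lift y) : Fin (d + 2) → ℝ) k)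
        ∘ (Equiv.swap 0 a)) := by
  obtain ⟨A, A0, hA⟩ := sl_cone_cov (d := d + 1)
  refine ⟨A, A0, fun H Hm M hM => ?_⟩
  have Hi : ∀ σ : Equiv.Perm (Fin (d + 2)), IntegrableOn (fun y => H (sl_lift y ∘ σ)) (sl_S (d + 1)) :=
    fun σ => IntegrableOn.of_bound sl_S_finite
      ((Hm.comp (continuous_pi fun i => (continuous_apply _).comp sl_lift_cont).measurable).aestronglyMeasurable) M
      ((ae_restrict_iff' sl_S_meas).2 (Filter.Eventually.of_forall fun y hy =>
        hM _ (fun i => hy _) ((Equiv.sum_comp σ (sl_lift y)).trans (sl_lift_sum y))))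
  let R : Fin (d + 2) → Set (Fin (d + 1) → ℝ) := fun a =>
    {x ∈ sl_S (d + 1) | ∀ i, sl_lift x a ≤ sl_lift x i}
  have Rm : ∀ a, MeasurableSet (R a) := fun a => by
    refine sl_S_meas.inter (show MeasurableSet {x : Fin (d + 1) → ℝ | ∀ i, sl_lift x a ≤ sl_lift x i} from ?_)
    simp only [Set.ofPred_forall]
    exact MeasurableSet.iInter fun i => (isClosed_le ((continuous_apply a).comp sl_lift_cont)
      ((continuous_apply i).comp sl_lift_cont)).measurableSet
  have hU : sl_S (d + 1) = ⋃ a, R a := by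
    ext x
    simp only [R, mem_iUnion, mem_ofPred_eq, exists_and_left]
    refine ⟨fun hx => ⟨hx, ?_⟩, fun h => h.1⟩
    obtain ⟨a, -, ha⟩ := Finset.exists_min_image Finset.univ (sl_lift x) Finset.univ_nonempty
    exact ⟨a, fun i => ha i (Finset.mem_univ i)⟩
  have hdis : Pairwise (Function.onFun (AEDisjoint volume) R) := fun a b hab => by
    refine measure_mono_null ?_ (sl_tie_null a b hab)
    rintro x ⟨⟨hx, h1⟩, ⟨-, h2⟩⟩
    exact ⟨hx, le_antisymm (h1 b) (h2 a)⟩
  have Hi1 : IntegrableOn (fun y => H (sl_lift y)) (sl_S (d + 1)) := by simpa using Hi 1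
  rw [sl_int]
  conv_lhs => rw [hU]
  rw [integral_iUnion_ae (fun a => (Rm a).nullMeasurableSet) hdis (hU ▸ Hi1), tsum_fintype, Finset.mul_sum]
  refine Finset.sum_congr rfl fun a _ => ?_
  set σ := Equiv.swap (0 : Fin (d + 2)) a with hσ
  have e1 : ∫ x in R a, H (sl_lift x) = ∫ x in R 0, H (sl_lift x ∘ σ) := by
    let G : (Fin (d + 2) → ℝ) → ℝ := {l | ∀ i, l a ≤ l i}.indicator H
    have key := sl_int_perm σ G
    simp only [sl_int] at key
    have p1 : ∀ y, G (sl_lift y) = {y | ∀ i, sl_lift y a ≤ sl_lift y i}.indicator (fun y => H (sl_lift y)) y := fun y => rfl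
    have p2 : ∀ y, G (sl_lift y ∘ σ) = {y | ∀ i, sl_lift y 0 ≤ sl_lift y i}.indicator (fun y => H (sl_lift y ∘ σ)) y := by
      intro y
      have : (sl_lift y ∘ σ ∈ {l : Fin (d + 2) → ℝ | ∀ i, l a ≤ l i}) ↔ (∀ i, sl_lift y 0 ≤ sl_lift y i) := by
        simp only [mem_ofPred_eq, Function.comp_apply, hσ, Equiv.swap_apply_right]
        exact ⟨fun h i => by simpa using h (Equiv.swap 0 a i), fun h i => h _⟩
      by_cases h : ∀ i, sl_lift y 0 ≤ sl_lift y i
      · simp only [G]; rw [indicator_of_mem (this.2 h), indicator_of_mem (show y ∈ {y : Fin (d + 1) → ℝ | ∀ i, sl_lift y 0 ≤ sl_lift y i} from h)]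
      · simp only [G]; rw [indicator_of_notMem (mt this.1 h), indicator_of_notMem (show y ∉ {y : Fin (d + 1) → ℝ | ∀ i, sl_lift y 0 ≤ sl_lift y i} from h)]
    have mm : ∀ b : Fin (d + 2), MeasurableSet {y : Fin (d + 1) → ℝ | ∀ i, sl_lift y b ≤ sl_lift y i} := fun b => by
      simp only [Set.ofPred_forall]
      exact MeasurableSet.iInter fun i => (isClosed_le ((continuous_apply b).comp sl_lift_cont)
        ((continuous_apply i).comp sl_lift_cont)).measurableSet
    simp only [p1, p2, setIntegral_indicator (mm _)] at key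
    exact key.symm
  rw [e1]
  have e2 : R 0 = sl_cone (d + 1) '' sl_S (d + 1) := sl_cone_image.symm
  rw [e2, hA]
  congr 1
  rw [sl_polar (fun z => H (sl_lift (sl_cone (d + 1) z) ∘ σ)) (M := M)
    (Hm.comp ((continuous_pi fun i => (continuous_apply _).comp (sl_lift_cont.comp (by unfold sl_cone; fun_prop))).measurable))
    (fun z hz => hM _ (fun i => (sl_cone_image (d := d + 1) ▸ mem_image_of_mem _ hz :
      sl_cone (d + 1) z ∈ {x ∈ sl_S (d + 1) | ∀ i, sl_lift x 0 ≤ sl_lift x i}).1 _)
      ((Equiv.sum_comp σ _).trans (sl_lift_sum _)))]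
  refine intervalIntegral.integral_congr fun s _ => ?_
  congr 1
  refine setIntegral_congr_fun sl_S_meas fun y _ => congrArg H ?_
  funext k
  simp only [Function.comp_apply, sl_lift_cone, Pi.smul_apply, smul_eq_mul, ← Finset.mul_sum, sl_lift_sum,
    mul_one]
  generalize σ k = j
  refine Fin.cases ?_ (fun i => ?_) j <;> simp <;> ring

end

end Vale.Agent.P254L
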