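import Mathlib

open MeasureTheory Set

namespace Vale.Agent.P254L

noncomputable section

/-- The centroid of a set. -/
def centroidOf {n : ℕ} (K : Set (Fin n → ℝ)) : Fin n → ℝ :=
  fun i => (volume.real K)⁻¹ * ∫ x in K, x i

/-- The covariance matrix of the uniform distribution on a set. -/
def covarianceOf {n : ℕ} (K : Set (Fin n → ℝ)) : Matrix (Fin n) (Fin n) ℝ :=
  Matrix.of fun i j => (volume.real K)⁻¹ *
    ∫ x in K, (x i - centroidOf K i) * (x j - centroidOf K j)

/-- The isotropic constant `(det Σ_K / |K|²) ^ (1 / 2n)`. -/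
def isotropicConstant {n : ℕ} (K : Set (Fin n → ℝ)) : ℝ :=
  ((covarianceOf K).det / volume.real K ^ 2) ^ ((1 : ℝ) / (2 * n))

/-- An `n`-simplex: the convex hull of `n + 1` affinely independent points. -/
def IsNSimplex {n : ℕ} (S : Set (Fin n → ℝ)) : Prop :=
  ∃ p : Fin (n + 1) → (Fin n → ℝ), AffineIndependent ℝ p ∧ S = convexHull ℝ (Set.range p)

end

end Vale.Agent.P254L
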