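import Vale.Agent.P254L.Cone

open MeasureTheory Set

namespace Vale.Agent.P254L

noncomputable section

variable {d : ℕ}

/-- The weight `|x|²_Σ - (n + 2)` in barycentric coordinates, up to its meaning. -/
def sl_W (d : ℕ) (l : Fin (d + 2) → ℝ) : ℝ :=
  ((d : ℝ) + 3) * (((d : ℝ) + 2) * ∑ i, l i ^ 2 - 2)

/-- The centre of the corner simplex. -/
def sl_cc (d : ℕ) : Fin (d + 1) → ℝ := fun _ => ((d : ℝ) + 2)⁻¹

lemma sl_sumsq_le_one {m : ℕ} {l : Fin m → ℝ} (h0 : ∀ i, 0 ≤ l i) (hs : ∑ i, l i = 1) :
    ∑ i, l i ^ 2 ≤ 1 :=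
  hs ▸ Finset.sum_le_sum fun i _ => by
    have : l i ≤ 1 := hs ▸ Finset.single_le_sum (fun j _ => h0 j) (Finset.mem_univ i)
    nlinarith [h0 i]

set_option maxHeartbeats 1600000 in
/-- A near-simplex body inside the simplex, touching every facet near its centre, loses weight
of positive total. -/
theorem sl_facet (d : ℕ) : ∃ η : ℝ, 0 < η ∧ η ≤ 1/2 ∧ ∀ K : Set (Fin (d + 1) → ℝ),
    Convex ℝ K → IsClosed K → K ⊆ sl_S (d + 1) →
    (∀ x ∈ sl_S (d + 1), sl_cc d + (1 - η) • (x - sl_cc d) ∈ K) →
    (∀ a : Fin (d + 2), ∃ p : Fin (d + 1) → ℝ, ∑ i, p i = 1 ∧ ‖p - sl_c (d + 1)‖ ≤ η ∧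
      Fin.tail ((Fin.cons 0 p : Fin (d + 2) → ℝ) ∘ Equiv.swap 0 a) ∈ K) →
    K = sl_S (d + 1) ∨ 0 < ∫ x in sl_S (d + 1) \ K, sl_W d (sl_lift x) := by
  obtain ⟨κ, κ0, η0, η00, hκ⟩ := sl_kappa d
  obtain ⟨A, A0, hA⟩ := sl_cone_decomp (d := d)
  set CD : ℝ := ((d : ℝ) + 3) * ((d : ℝ) + 1) with hCD
  have CD0 : 0 < CD := by positivity
  refine ⟨min η0 (min (1/2) (κ / (2 * CD))), lt_min η00 (lt_min (by norm_num) (by positivity)),
    (min_le_right _ _).trans (min_le_left _ _), fun K hKc hKcl hKS hin htouch => ?_⟩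
  set η := min η0 (min (1/2) (κ / (2 * CD))) with hη
  have ηpos : 0 < η := lt_min η00 (lt_min (by norm_num) (by positivity))
  have η2 : η ≤ 1/2 := (min_le_right _ _).trans (min_le_left _ _)
  have ηκ : CD * η ≤ κ / 2 := by
    have : η ≤ κ / (2 * CD) := (min_le_right _ _).trans (min_le_right _ _)
    rw [le_div_iff₀ (by positivity)] at this
    linarith
  set K0 : Set (Fin (d + 1) → ℝ) := (fun v => sl_cc d + v) ⁻¹' K with hK0
  have K0c : Convex ℝ K0 := hKc.translate_preimage_right _
  have K0cl : IsClosed K0 := hKcl.preimage (continuous_const.add continuous_id)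
  have hcS : sl_lift (sl_cc d) = sl_c (d + 2) := by
    have e : (fun _ : Fin (d + 1) => ((d + 2 : ℕ) : ℝ)⁻¹) = sl_cc d := by
      funext i; simp [sl_cc]
    rw [← e]; exact sl_lift_center
  have K0n : K0 ∈ nhds (0 : Fin (d + 1) → ℝ) := by
    have hopen : IsOpen {v : Fin (d + 1) → ℝ | ∀ i, 0 < sl_lift (sl_cc d + (1 - η)⁻¹ • v) i} :=
      sl_S_open_pos.preimage (by fun_prop)
    refine Filter.mem_of_superset (hopen.mem_nhds (fun i => ?_)) fun v hv => ?_
    · simp only [smul_zero, add_zero, hcS, sl_c]; positivity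
    · have := hin _ (fun i => (hv i).le)
      rwa [add_sub_cancel_left, smul_inv_smul₀ (by linarith : (1 - η) ≠ 0)] at this
  have K0a : Absorbent ℝ K0 := absorbent_nhds_zero K0n
  set g := gauge K0 with hg
  have gconv : ConvexOn ℝ univ g := ⟨convex_univ, fun x _ y _ a b ha hb _ => by
    refine (gauge_add_le K0c K0a _ _).trans (le_of_eq ?_)
    rw [gauge_smul_of_nonneg ha, gauge_smul_of_nonneg hb]⟩
  have gc := sl_convex_cont gconv
  have gmem : ∀ v, g v ≤ 1 ↔ v ∈ K0 := fun v => by
    rw [hg, gauge_le_one_iff_mem_closure K0c K0n, K0cl.closure_eq]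
  let B : (Fin (d + 2) → ℝ) → ℝ := fun l => g (Fin.tail l - sl_cc d)
  have tailc : Continuous (Fin.tail : (Fin (d + 2) → ℝ) → _) := continuous_pi fun i => continuous_apply _
  have Bc : Continuous B := gc.comp (tailc.sub continuous_const)
  have tlift : ∀ x : Fin (d + 1) → ℝ, Fin.tail (sl_lift x) = x := fun x => Fin.tail_cons _ _
  have Bmem : ∀ x, (sl_lift x ∈ {l | 1 < B l}) ↔ x ∉ K := fun x => by
    simp only [mem_ofPred_eq, B, tlift, ← not_le, gmem, hK0, mem_preimage, add_sub_cancel]
  have Wc : Continuous (sl_W d) := by unfold sl_W; fun_prop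
  have Bm : MeasurableSet {l | 1 < B l} := (isOpen_lt continuous_const Bc).measurableSet
  let H : (Fin (d + 2) → ℝ) → ℝ := {l | 1 < B l}.indicator (sl_W d)
  have Hm : Measurable H := Wc.measurable.indicator Bm
  set M := ((d : ℝ) + 3) * ((d : ℝ) + 4) with hM
  have Hb : ∀ l, (∀ i, 0 ≤ l i) → ∑ i, l i = 1 → |H l| ≤ M := by
    intro l h0 hs
    refine (show |H l| ≤ |sl_W d l| from ?_).trans ?_
    · have := norm_indicator_le_norm_self (s := {l | 1 < B l}) (f := sl_W d) l
      simpa [Real.norm_eq_abs] using this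
    · have u1 := sl_sumsq_le_one h0 hs
      have u0 : 0 ≤ ∑ i, l i ^ 2 := Finset.sum_nonneg fun i _ => sq_nonneg _
      rw [sl_W, hM, abs_mul, abs_of_pos (by positivity : (0:ℝ) < (d:ℝ) + 3)]
      refine mul_le_mul_of_nonneg_left (abs_le.2 ⟨?_, ?_⟩) (by positivity) <;> nlinarith
  have hInt : sl_int (d + 1) H = ∫ x in sl_S (d + 1) \ K, sl_W d (sl_lift x) := by
    have e : (fun x => H (sl_lift x)) = Kᶜ.indicator (fun x => sl_W d (sl_lift x)) := by
      funext x
      by_cases hx : x ∈ K
      · simp only [H]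
        rw [indicator_of_notMem (fun h => (Bmem x).1 h hx), indicator_of_notMem (by simpa using hx)]
      · simp only [H]
        rw [indicator_of_mem ((Bmem x).2 hx), indicator_of_mem (show x ∈ Kᶜ from hx)]
    rw [sl_int, e, setIntegral_indicator hKcl.isOpen_compl.measurableSet, Set.sdiff_eq]
  let emb : Fin (d + 2) → (Fin (d + 1) → ℝ) → (Fin (d + 1) → ℝ) :=
    fun a l => Fin.tail ((Fin.cons 0 l : Fin (d + 2) → ℝ) ∘ Equiv.swap 0 a)
  let U : Fin (d + 2) → (Fin (d + 1) → ℝ) → ℝ := fun a l => g (emb a l - sl_cc d) - 1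
  have embc : ∀ a, Continuous (emb a) := fun a => continuous_pi fun i =>
    (continuous_apply _).comp (by fun_prop : Continuous fun l : Fin (d + 1) → ℝ => (Fin.cons 0 l : Fin (d + 2) → ℝ))
  have Uconv : ∀ a, ConvexOn ℝ univ (U a) := by
    intro a
    refine ⟨convex_univ, fun x _ y _ s t hs ht hst => ?_⟩
    have e : emb a (s • x + t • y) - sl_cc d = s • (emb a x - sl_cc d) + t • (emb a y - sl_cc d) := by
      funext i
      simp only [emb, Fin.tail, Function.comp_apply, Pi.sub_apply, Pi.add_apply, Pi.smul_apply, smul_eq_mul]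
      generalize Equiv.swap (0 : Fin (d + 2)) a i.succ = k
      refine Fin.cases ?_ (fun j => ?_) k <;> simp <;> linear_combination (sl_cc d i) * hst
    simp only [U, e]
    have := gconv.2 (mem_univ (emb a x - sl_cc d)) (mem_univ (emb a y - sl_cc d)) hs ht hst
    simp only [smul_eq_mul] at this ⊢
    nlinarith
  have emblift : ∀ a (l : Fin (d + 1) → ℝ), ∑ i, l i = 1 →
      sl_lift (emb a l) = (Fin.cons 0 l : Fin (d + 2) → ℝ) ∘ Equiv.swap 0 a := by
    intro a l hl
    refine sl_lift_tail _ ?_
    simp only [Function.comp_apply]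
    rw [Equiv.sum_comp (Equiv.swap 0 a) (Fin.cons 0 l : Fin (d + 2) → ℝ)]
    simp [Fin.sum_univ_succ] at hl ⊢
    linarith
  have Ulow : ∀ a l, ∑ i, l i = 1 → 0 ≤ U a l := by
    intro a l hl
    simp only [U, sub_nonneg]
    by_contra hlt
    rw [not_le] at hlt
    obtain ⟨t, t0, t1, ht⟩ := exists_lt_of_gauge_lt K0a hlt
    rw [mem_smul_set_iff_inv_smul_mem₀ t0.ne'] at ht
    have := hKS ht
    have h2 := this a
    have e : sl_lift (sl_cc d + t⁻¹ • (emb a l - sl_cc d)) a
        = (1 - t⁻¹) * ((d : ℝ) + 2)⁻¹ + t⁻¹ * sl_lift (emb a l) a := by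
      refine Fin.cases ?_ (fun j => ?_) a
      · simp [sl_lift, sl_cc, Finset.sum_add_distrib, ← Finset.mul_sum, Finset.sum_sub_distrib]
        field_simp; ring
      · simp [sl_lift, sl_cc]; ring
    rw [e, emblift a l hl] at h2
    simp at h2
    have : (1:ℝ) < t⁻¹ := one_lt_inv_iff₀.2 ⟨t0, t1⟩
    have : (1 - t⁻¹) * ((d : ℝ) + 2)⁻¹ < 0 := mul_neg_of_neg_of_pos (by linarith) (by positivity)
    linarith
  have Uhigh : ∀ a l, (∀ i, 0 ≤ l i) → ∑ i, l i = 1 → (1 - η) * (U a l + 1) ≤ 1 := by
    intro a l h0 hl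
    have hmem : emb a l ∈ sl_S (d + 1) := fun i => by
      rw [emblift a l hl, Function.comp_apply]
      generalize Equiv.swap 0 a i = k
      refine Fin.cases ?_ (fun j => ?_) k <;> simp [h0]
    have := (gmem ((1 - η) • (emb a l - sl_cc d))).2 (hin _ hmem)
    rw [hg, gauge_smul_of_nonneg (by linarith)] at this
    simpa [U, hg] using this
  have Uz : ∀ a, ∃ p : Fin (d + 1) → ℝ, ∑ i, p i = 1 ∧ ‖p - sl_c (d + 1)‖ ≤ η0 ∧ U a p = 0 := by
    intro a
    obtain ⟨p, hp, hpd, hpK⟩ := htouch a
    refine ⟨p, hp, hpd.trans (min_le_left _ _), le_antisymm ?_ (Ulow a p hp)⟩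
    simp only [U, sub_nonpos, gmem, hK0, mem_preimage, add_sub_cancel]
    exact hpK
  -- contribution of each facet
  let T : Fin (d + 2) → ℝ := fun a => ∫ s in (0:ℝ)..1, s ^ d * ∫ y in sl_S d,
    H ((fun k => (1 - s) * ((d : ℝ) + 2)⁻¹ + s * (Fin.cons 0 (sl_lift y) : Fin (d + 2) → ℝ) k)
      ∘ (Equiv.swap 0 a))
  have hT : ∀ a, ((d : ℝ) + 3) * (κ / 2) * sl_int d (U a) ≤ T a := by
    intro a
    let k : ℝ → (Fin d → ℝ) → (Fin (d + 2) → ℝ) := fun s y =>
      (fun k => (1 - s) * ((d : ℝ) + 2)⁻¹ + s * (Fin.cons 0 (sl_lift y) : Fin (d + 2) → ℝ) k)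
        ∘ (Equiv.swap 0 a)
    have kc : Continuous fun p : ℝ × (Fin d → ℝ) => k p.1 p.2 := by
      refine continuous_pi fun i => ?_
      have : Continuous fun p : ℝ × (Fin d → ℝ) => (Fin.cons 0 (sl_lift p.2) : Fin (d + 2) → ℝ) (Equiv.swap 0 a i) :=
        (continuous_apply _).comp ((by fun_prop : Continuous fun l : Fin (d + 1) → ℝ =>
          (Fin.cons 0 l : Fin (d + 2) → ℝ)).comp (sl_lift_cont.comp continuous_snd))
      exact ((continuous_const.sub continuous_fst).mul continuous_const).add (continuous_fst.mul this)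
    have kS : ∀ s ∈ Ioc (0:ℝ) 1, ∀ y ∈ sl_S d, (∀ i, 0 ≤ k s y i) ∧ ∑ i, k s y i = 1 := by
      intro s hs y hy
      have nn : ∀ j, 0 ≤ (Fin.cons 0 (sl_lift y) : Fin (d + 2) → ℝ) j := fun j => by
        refine Fin.cases ?_ (fun i => ?_) j
        · simp
        · simpa using hy i
      refine ⟨fun i => add_nonneg (mul_nonneg (by linarith [hs.2]) (by positivity))
        (mul_nonneg hs.1.le (nn _)), ?_⟩
      simp only [k, Function.comp_apply]
      rw [Equiv.sum_comp (Equiv.swap 0 a) (fun j => (1 - s) * ((d : ℝ) + 2)⁻¹ + s * (Fin.cons 0 (sl_lift y) : Fin (d + 2) → ℝ) j),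
        Finset.sum_add_distrib, ← Finset.mul_sum]
      have hone : ∑ j, (Fin.cons 0 (sl_lift y) : Fin (d + 2) → ℝ) j = 1 := by
        rw [Fin.sum_univ_succ]; simp [sl_lift_sum]
      rw [← Finset.mul_sum, hone, Finset.sum_const, Finset.card_univ, Fintype.card_fin, nsmul_eq_mul]
      push_cast
      field_simp
      ring
    set μ := volume.restrict (Ioc (0:ℝ) 1) with hμ
    set ν := volume.restrict (sl_S d) with hν
    have : IsFiniteMeasure μ := isFiniteMeasure_restrict.2 measure_Ioc_lt_top.ne
    have : IsFiniteMeasure ν := isFiniteMeasure_restrict.2 sl_S_finite.ne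
    have hae : ∀ᵐ p ∂μ.prod ν, p.1 ∈ Ioc (0:ℝ) 1 ∧ p.2 ∈ sl_S d := by
      rw [hμ, hν, Measure.prod_restrict]
      filter_upwards [ae_restrict_mem (measurableSet_Ioc.prod sl_S_meas)] with p hp
      exact hp
    let F : ℝ × (Fin d → ℝ) → ℝ := fun p => p.1 ^ d * H (k p.1 p.2)
    have Fi : Integrable F (μ.prod ν) := by
      refine Integrable.of_bound ((measurable_fst.pow_const d).mul (Hm.comp kc.measurable)).aestronglyMeasurable M ?_
      filter_upwards [hae] with p hp
      have := Hb _ (kS p.1 hp.1 p.2 hp.2).1 (kS p.1 hp.1 p.2 hp.2).2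
      simp only [F, Real.norm_eq_abs, abs_mul, abs_pow, abs_of_pos hp.1.1]
      exact (mul_le_of_le_one_left (abs_nonneg _) (pow_le_one₀ hp.1.1.le hp.1.2)).trans this
    have hTe : T a = ∫ y, ∫ s, F (s, y) ∂μ ∂ν := by
      rw [← integral_integral_swap (f := fun s y => F (s, y))
        (show Integrable (fun p : ℝ × (Fin d → ℝ) => F (p.1, p.2)) (μ.prod ν) from Fi)]
      simp only [T, hμ, hν, F, k]
      rw [intervalIntegral.integral_of_le zero_le_one]
      refine integral_congr_ae (Filter.Eventually.of_forall fun s => ?_)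
      exact (integral_const_mul _ _).symm
    let Wf : (Fin d → ℝ) → ℝ := fun y => U a (sl_lift y) *
      (((d : ℝ) + 2) * ∑ i, sl_lift y i ^ 2 - 2 - CD * η)
    have hpt : ∀ y ∈ sl_S d, ((d : ℝ) + 3) * Wf y ≤ ∫ s, F (s, y) ∂μ := by
      intro y hy
      have hl := sl_lift_sum y
      set u := U a (sl_lift y) with hu
      have u0 : 0 ≤ u := Ulow a _ hl
      have u1 : (1 - η) * (u + 1) ≤ 1 := Uhigh a _ hy hl
      set Sf := ∑ i, sl_lift y i ^ 2 with hSf
      set aa := ((d : ℝ) + 2) * Sf - 1 with haa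
      have aa1 : aa ≤ (d : ℝ) + 1 := by
        have := mul_le_mul_of_nonneg_left (sl_sumsq_le_one hy hl) (by positivity : (0:ℝ) ≤ (d:ℝ) + 2)
        rw [haa, hSf]; linarith
      have Sf0 : 1 ≤ ((d : ℝ) + 1) * Sf := by
        have := sq_sum_le_card_mul_sum_sq (s := (Finset.univ : Finset (Fin (d + 1)))) (f := sl_lift y)
        rw [hl] at this; simpa [hSf] using this
      have aa0 : 0 ≤ aa := by
        have : 0 ≤ Sf := Finset.sum_nonneg fun i _ => sq_nonneg _
        rw [haa]; nlinarith
      have hB : ∀ s : ℝ, 0 ≤ s → B (k s y) = s * (u + 1) := by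
        intro s hs
        simp only [B, hu, U, sub_add_cancel]
        rw [hg, ← smul_eq_mul, ← gauge_smul_of_nonneg hs]
        congr 1
        funext i
        simp [k, Fin.tail, emb, sl_cc]
        ring
      have hW : ∀ s : ℝ, sl_W d (k s y) = ((d : ℝ) + 3) * (s ^ 2 * aa - 1) := by
        intro s
        simp only [sl_W, k, Function.comp_apply]
        rw [Equiv.sum_comp (Equiv.swap 0 a) (fun j => ((1 - s) * ((d : ℝ) + 2)⁻¹ + s * (Fin.cons 0 (sl_lift y) : Fin (d + 2) → ℝ) j) ^ 2)]
        rw [Fin.sum_univ_succ]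
        simp only [Fin.cons_zero, Fin.cons_succ, add_sq, mul_pow, Finset.sum_add_distrib,
          ← Finset.mul_sum, hl, ← hSf, Finset.sum_const, Finset.card_univ, Fintype.card_fin, nsmul_eq_mul]
        rw [haa]; push_cast; field_simp; ring
      set ρ := (u + 1)⁻¹ with hρ
      have ρ1 : ρ ≤ 1 := inv_le_one_of_one_le₀ (by linarith)
      have ρ0 : 1 - η ≤ ρ := by rw [hρ, ← one_div, le_div_iff₀ (by linarith)]; exact u1
      have hρpos : 0 ≤ ρ := by linarith
      set X := ((d : ℝ) + 3) * ((1 - η) ^ (d + 2) * aa - 1) with hX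
      have low : ∀ s ∈ Ioc (0:ℝ) 1, (Ioc ρ 1).indicator (fun _ => X) s ≤ F (s, y) := by
        intro s hs
        by_cases h : s ∈ Ioc ρ 1
        · rw [indicator_of_mem h]
          have : k s y ∈ {l | 1 < B l} := by
            show 1 < B (k s y)
            rw [hB s hs.1.le]
            have := h.1; rw [hρ, ← one_div, div_lt_iff₀ (by linarith)] at this; linarith
          simp only [F, H]
          rw [indicator_of_mem this, hW, hX]
          have p1 : (1 - η) ^ (d + 2) ≤ s ^ (d + 2) := pow_le_pow_left₀ (by linarith) (by linarith [h.1]) _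
          have p2 : s ^ d ≤ 1 := pow_le_one₀ hs.1.le hs.2
          have p3 : (1 - η) ^ (d + 2) * aa ≤ s ^ (d + 2) * aa := mul_le_mul_of_nonneg_right p1 aa0
          rw [show s ^ d * ((↑d + 3) * (s ^ 2 * aa - 1)) = (↑d + 3) * (s ^ (d + 2) * aa - s ^ d) by ring]
          exact mul_le_mul_of_nonneg_left (by linarith) (by positivity)
        · rw [indicator_of_notMem h]
          have : k s y ∉ {l | 1 < B l} := by
            show ¬ 1 < B (k s y)
            rw [hB s hs.1.le, not_lt]
            have : s ≤ ρ := not_lt.1 fun hh => h ⟨hh, hs.2⟩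
            rw [hρ, ← one_div, le_div_iff₀ (by linarith)] at this; exact this
          simp only [F, H]
          rw [indicator_of_notMem this, mul_zero]
      have hint : Integrable (fun s => F (s, y)) μ := by
        refine Integrable.of_bound (((measurable_id.pow_const d).mul
          (Hm.comp (kc.comp (continuous_id.prodMk continuous_const)).measurable))).aestronglyMeasurable M ?_
        filter_upwards [ae_restrict_mem measurableSet_Ioc] with s hs
        have := Hb _ (kS s hs y hy).1 (kS s hs y hy).2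
        simp only [F, Real.norm_eq_abs, abs_mul, abs_pow, abs_of_pos hs.1]
        exact (mul_le_of_le_one_left (abs_nonneg _) (pow_le_one₀ hs.1.le hs.2)).trans this
      refine le_trans ?_ (integral_mono_ae ((integrable_const X).indicator measurableSet_Ioc) hint
        (by filter_upwards [ae_restrict_mem measurableSet_Ioc] with s hs; exact low s hs))
      rw [hμ, integral_indicator measurableSet_Ioc, Measure.restrict_restrict measurableSet_Ioc,
        inter_eq_self_of_subset_left (Ioc_subset_Ioc_left hρpos), setIntegral_const, smul_eq_mul,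
        Real.volume_real_Ioc_of_le ρ1]
      have e1 : 1 - ρ = u * ρ := by rw [hρ]; field_simp; ring
      rw [e1, hX]
      simp only [Wf, ← hu, ← hSf]
      have b1 : 1 - ((d + 3 : ℕ) : ℝ) * η ≤ (1 - η) ^ (d + 3) := by
        have := one_add_mul_le_pow (show (-2:ℝ) ≤ -η by linarith) (d + 3)
        simpa [sub_eq_add_neg] using this
      push_cast at b1
      have b2 : ρ * ((1 - η) ^ (d + 2) * aa - 1) ≥ aa - 1 - CD * η := by
        have h1 : (1 - η) ^ (d + 3) * aa ≤ ρ * ((1 - η) ^ (d + 2) * aa) := by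
          rw [pow_succ']
          have : 0 ≤ (1 - η) ^ (d + 2) * aa := mul_nonneg (pow_nonneg (by linarith) _) aa0
          nlinarith
        have h2 := mul_le_mul_of_nonneg_right b1 aa0
        have h3 := mul_le_mul_of_nonneg_left aa1 (show 0 ≤ ((d : ℝ) + 3) * η by positivity)
        rw [hCD]; nlinarith
      rw [show ((d : ℝ) + 2) * Sf - 2 = aa - 1 by rw [haa]; ring]
      calc ((d : ℝ) + 3) * (u * (aa - 1 - CD * η))
          ≤ ((d : ℝ) + 3) * (u * (ρ * ((1 - η) ^ (d + 2) * aa - 1))) := by
            exact mul_le_mul_of_nonneg_left (mul_le_mul_of_nonneg_left b2 u0) (by positivity)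
        _ = u * ρ * (((d : ℝ) + 3) * ((1 - η) ^ (d + 2) * aa - 1)) := by ring
    have Uc := sl_convex_cont (Uconv a)
    have hWi : Integrable (fun y => ((d : ℝ) + 3) * Wf y) ν :=
      (sl_int_integrable (G := fun l => U a l * (((d : ℝ) + 2) * ∑ i, l i ^ 2 - 2 - CD * η)) (by fun_prop)).const_mul _
    have := integral_mono_ae hWi (Fi.integral_prod_right)
      (by rw [hν]; filter_upwards [ae_restrict_mem sl_S_meas] with y hy; exact hpt y hy)
    rw [← hTe, integral_const_mul] at this
    refine le_trans ?_ this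
    obtain ⟨p, hp, hpd, hUp⟩ := Uz a
    have hk := hκ (U a) (Uconv a) (fun l _ hl => Ulow a l hl) p hp hpd hUp
    have e : ∫ y, Wf y ∂ν = sl_int d (fun l => U a l * (((d : ℝ) + 2) * ∑ i, l i ^ 2 - 2))
        - CD * η * sl_int d (U a) := by
      rw [← sl_int_mul, ← sl_int_sub (by fun_prop) (by fun_prop)]
      exact integral_congr_ae (Filter.Eventually.of_forall fun y => by simp only [Wf]; ring)
    rw [e, mul_assoc]
    refine mul_le_mul_of_nonneg_left ?_ (by positivity)
    have I0 : 0 ≤ sl_int d (U a) := setIntegral_nonneg sl_S_meas fun y _ => Ulow a _ (sl_lift_sum y)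
    nlinarith [mul_le_mul_of_nonneg_right ηκ I0]
  have nonneg : ∀ a, 0 ≤ sl_int d (U a) := fun a => setIntegral_nonneg sl_S_meas fun y _ => Ulow a _ (sl_lift_sum y)
  by_cases hz : ∀ a, sl_int d (U a) = 0
  · left
    refine Subset.antisymm hKS fun x hx => ?_
    obtain ⟨a, -, hmin⟩ := Finset.exists_min_image Finset.univ (sl_lift x) Finset.univ_nonempty
    have hmin' : ∀ i, sl_lift x a ≤ sl_lift x i := fun i => hmin i (Finset.mem_univ i)
    set m := sl_lift x a with hm
    have m0 : 0 ≤ m := hx a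
    set s := 1 - ((d : ℝ) + 2) * m with hs
    let e : Fin (d + 2) → ℝ := fun j => sl_lift x (Equiv.swap 0 a j) - m
    have e0 : e 0 = 0 := by simp [e, hm]
    have es : ∑ j : Fin (d + 1), e j.succ = s := by
      have t : ∑ j, e j = s := by
        simp only [e]
        rw [Equiv.sum_comp (Equiv.swap 0 a) (fun j => sl_lift x j - m), Finset.sum_sub_distrib, sl_lift_sum]
        simp [hs]
        left; ring
      rwa [Fin.sum_univ_succ, e0, zero_add] at t
    have s0 : 0 ≤ s := es ▸ Finset.sum_nonneg fun j _ => by simp only [e]; linarith [hmin' (Equiv.swap 0 a j.succ)]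
    rcases s0.eq_or_lt with hs0 | hs0
    · have hall : ∀ j, e j = 0 := fun j => by
        refine Fin.cases e0 (fun i => ?_) j
        refine le_antisymm ?_ (by simp only [e]; linarith [hmin' (Equiv.swap 0 a i.succ)])
        exact (es.trans hs0.symm) ▸ Finset.single_le_sum
          (fun j (_ : j ∈ Finset.univ) => show 0 ≤ e j.succ by simp only [e]; linarith [hmin' (Equiv.swap 0 a j.succ)])
          (Finset.mem_univ i)
      have hx' : sl_cc d + (1 - η) • (x - sl_cc d) = x := by
        have : x = sl_cc d := by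
          funext i
          have := hall (Equiv.swap 0 a i.succ)
          simp only [e, Equiv.swap_apply_self] at this
          simp [sl_lift] at this
          simp [sl_cc]
          field_simp
          rw [hs] at hs0
          nlinarith
        rw [this]; simp
      exact hx' ▸ hin x hx
    · let l : Fin (d + 1) → ℝ := fun j => e j.succ / s
      have l0 : ∀ j, 0 ≤ l j := fun j => div_nonneg (by simp only [e]; linarith [hmin' (Equiv.swap 0 a j.succ)]) hs0.le
      have ls : ∑ j, l j = 1 := by simp only [l, ← Finset.sum_div, es]; exact div_self hs0.ne'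
      have hU0 : U a l ≤ 0 := by
        by_contra hpos
        rw [not_le] at hpos
        have hc : Continuous fun y : Fin d → ℝ => U a (sl_lift y) := (sl_convex_cont (Uconv a)).comp sl_lift_cont
        set y0 := Fin.tail l with hy0
        have ho : IsOpen {y : Fin d → ℝ | 0 < U a (sl_lift y)} := isOpen_lt continuous_const hc
        have hy0m : 0 < U a (sl_lift y0) := by rw [hy0, sl_lift_tail l ls]; exact hpos
        obtain ⟨r, r0, hr⟩ := Metric.isOpen_iff.1 ho y0 hy0m
        have hne : ({y : Fin d → ℝ | ∀ i, 0 < sl_lift y i} ∩ Metric.ball y0 r).Nonempty := by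
          set cd : Fin d → ℝ := fun _ => ((d + 1 : ℕ) : ℝ)⁻¹ with hcd
          set t := min 1 (r / (2 * (‖cd - y0‖ + 1))) with ht
          have t0 : 0 < t := lt_min one_pos (by positivity)
          refine ⟨y0 + t • (cd - y0), fun i => ?_, ?_⟩
          · have e : sl_lift (y0 + t • (cd - y0)) i = (1 - t) * l i + t * (sl_c (d + 1)) i := by
              rw [← sl_lift_center (d := d), ← hcd]
              conv_rhs => rw [← sl_lift_tail l ls, ← hy0]
              refine Fin.cases ?_ (fun j => ?_) i
              · simp [sl_lift, Finset.sum_add_distrib, ← Finset.mul_sum, Finset.sum_sub_distrib]; ring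
              · simp [sl_lift]; ring
            rw [e]
            refine add_pos_of_nonneg_of_pos (mul_nonneg (by linarith [min_le_left (1:ℝ) (r / (2 * (‖cd - y0‖ + 1)))]) (l0 i)) ?_
            simp [sl_c]; positivity
          · rw [Metric.mem_ball, dist_eq_norm, add_sub_cancel_left, norm_smul, Real.norm_eq_abs, abs_of_pos t0]
            have h1 : t * (2 * (‖cd - y0‖ + 1)) ≤ r := (le_div_iff₀ (by positivity)).1 (min_le_right _ _)
            nlinarith [norm_nonneg (cd - y0)]
        have hpos_meas := (sl_S_open_pos.inter Metric.isOpen_ball).measure_pos volume hne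
        have hae : (fun y : Fin d → ℝ => U a (sl_lift y)) =ᵐ[volume.restrict (sl_S d)] 0 :=
          (setIntegral_eq_zero_iff_of_nonneg_ae
            ((ae_restrict_iff' sl_S_meas).2 (Filter.Eventually.of_forall fun y _ => Ulow a _ (sl_lift_sum y)))
            (sl_int_integrable (sl_convex_cont (Uconv a)))).1 (hz a)
        have hzero : volume ({y : Fin d → ℝ | ∀ i, 0 < sl_lift y i} ∩ Metric.ball y0 r) = 0 := by
          refine measure_mono_null (t := {y | ¬ U a (sl_lift y) = 0} ∩ sl_S d) ?_ ?_
          · rintro y ⟨h1, h2⟩; exact ⟨(hr h2).ne', fun i => (h1 i).le⟩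
          · have := ae_iff.1 hae
            rwa [Measure.restrict_apply' sl_S_meas] at this
        exact hpos_meas.ne' hzero
      have hgx : g (x - sl_cc d) ≤ 1 := by
        have e1 : x - sl_cc d = s • (emb a l - sl_cc d) := by
          funext i
          have key : ∀ j : Fin (d + 2), sl_lift x j - m = s * ((Fin.cons 0 l : Fin (d + 2) → ℝ) (Equiv.swap 0 a j)) := by
            intro j
            have : e (Equiv.swap 0 a j) = sl_lift x j - m := by simp [e]
            rw [← this]
            generalize Equiv.swap 0 a j = q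
            refine Fin.cases ?_ (fun q' => ?_) q
            · simp [e0]
            · simp [l]; field_simp
          have := key i.succ
          simp [sl_lift] at this
          simp [emb, Fin.tail, sl_cc]
          rw [hs] at this ⊢
          field_simp
          linear_combination ((d : ℝ) + 2) * this
        rw [e1, hg, gauge_smul_of_nonneg hs0.le]
        have : gauge K0 (emb a l - sl_cc d) ≤ 1 := by simpa [U, hg] using hU0
        have s1 : s ≤ 1 := by rw [hs]; nlinarith
        exact (mul_le_of_le_one_right hs0.le this).trans s1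
      have := (gmem _).1 hgx
      simpa [hK0] using this
  · right
    push Not at hz
    obtain ⟨a0, ha0⟩ := hz
    rw [← hInt, hA H Hm M Hb]
    refine mul_pos A0 ?_
    have hsum : 0 < ∑ a, ((d : ℝ) + 3) * (κ / 2) * sl_int d (U a) :=
      Finset.sum_pos' (fun a _ => mul_nonneg (by positivity) (nonneg a))
        ⟨a0, Finset.mem_univ _, mul_pos (by positivity) (lt_of_le_of_ne (nonneg a0) (Ne.symm ha0))⟩
    exact hsum.trans_le (Finset.sum_le_sum fun a _ => hT a)

end

end Vale.Agent.P254L
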