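import Vale.Agent.P254L.Chain

open MeasureTheory Set

namespace Vale.Agent.P254L

noncomputable section

variable {d : ℕ}

lemma sl_interior_bound {U : (Fin (d + 1) → ℝ) → ℝ} (hU : ConvexOn ℝ univ U)
    (hpos : ∀ l, (∀ i, 0 ≤ l i) → ∑ i, l i = 1 → 0 ≤ U l)
    {y : Fin d → ℝ} {ρ : ℝ} (hρ : 0 < ρ) (hy : ∀ i, ρ ≤ sl_lift y i) :
    U (sl_lift y) * (2 * (ρ / (d + 1))) ^ d ≤ sl_int d U := by
  set r := ρ / ((d:ℝ) + 1) with hr
  have r0 : 0 < r := by positivity
  have hdr : (d:ℝ) * r + r = ρ := by rw [hr]; field_simp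
  have Uc : Continuous fun z => U (sl_lift z) := (sl_convex_cont hU).comp sl_lift_cont
  have hsub : Metric.closedBall y r ⊆ sl_S d := by
    intro z hz i
    rw [Metric.mem_closedBall, dist_pi_le_iff r0.le] at hz
    have hz' : ∀ j, |z j - y j| ≤ r := fun j => hz j
    refine Fin.cases ?_ (fun j => ?_) i
    · simp only [sl_lift, Fin.cons_zero]
      have h0 := hy 0
      simp only [sl_lift, Fin.cons_zero] at h0
      have : ∑ j, (z j - y j) ≤ ∑ _j : Fin d, r :=
        Finset.sum_le_sum fun j _ => le_trans (le_abs_self _) (hz' j)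
      rw [Finset.sum_sub_distrib] at this
      simp at this
      linarith
    · simp only [sl_lift, Fin.cons_succ]
      have h0 := hy j.succ
      simp only [sl_lift, Fin.cons_succ] at h0
      have := (abs_le.1 (hz' j)).1
      nlinarith [mul_nonneg (Nat.cast_nonneg (α := ℝ) d) r0.le]
  have hpre : (fun z => (y + y) - z) ⁻¹' Metric.closedBall y r = Metric.closedBall y r := by
    ext z
    simp only [mem_preimage, Metric.mem_closedBall, dist_eq_norm]
    rw [show y + y - z - y = -(z - y) by abel, norm_neg]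
  have hmp := Measure.measurePreserving_sub_left (volume : Measure (Fin d → ℝ)) (y + y)
  have hrefl := hmp.setIntegral_preimage_emb (Homeomorph.subLeft (y + y)).measurableEmbedding
    (fun z => U (sl_lift z)) (Metric.closedBall y r)
  rw [hpre] at hrefl
  have i1 : IntegrableOn (fun z => U (sl_lift z)) (Metric.closedBall y r) :=
    Uc.continuousOn.integrableOn_compact (isCompact_closedBall y r)
  have i2 : IntegrableOn (fun z => U (sl_lift (y + y - z))) (Metric.closedBall y r) :=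
    (Uc.comp (continuous_const.sub continuous_id)).continuousOn.integrableOn_compact
      (isCompact_closedBall y r)
  have hmid : ∀ z, 2 * U (sl_lift y) ≤ U (sl_lift z) + U (sl_lift (y + y - z)) := by
    intro z
    have := hU.2 (mem_univ (sl_lift z)) (mem_univ (sl_lift (y + y - z))) (show (0:ℝ) ≤ 1/2 by norm_num)
      (show (0:ℝ) ≤ 1/2 by norm_num) (by norm_num)
    have e : (1/2:ℝ) • sl_lift z + (1/2:ℝ) • sl_lift (y + y - z) = sl_lift y := by
      funext i
      refine Fin.cases ?_ (fun j => ?_) i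
      · simp [sl_lift, Finset.sum_add_distrib]; ring
      · simp [sl_lift]; ring
    rw [e, smul_eq_mul, smul_eq_mul] at this
    linarith
  have h2 : ∫ _z in Metric.closedBall y r, 2 * U (sl_lift y)
      ≤ ∫ z in Metric.closedBall y r, (U (sl_lift z) + U (sl_lift (y + y - z))) :=
    setIntegral_mono_on (integrableOn_const (isCompact_closedBall y r).measure_lt_top.ne) (i1.add i2)
      measurableSet_closedBall fun z _ => hmid z
  rw [integral_add i1 i2, hrefl, setIntegral_const, smul_eq_mul] at h2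
  have hvol : volume.real (Metric.closedBall y r) = (2 * r) ^ d := by
    rw [measureReal_def, Real.volume_pi_closedBall _ r0.le, Fintype.card_fin,
      ENNReal.toReal_ofReal (by positivity)]
  rw [hvol] at h2
  have h3 : ∫ z in Metric.closedBall y r, U (sl_lift z) ≤ sl_int d U :=
    setIntegral_mono_set (sl_int_integrable (sl_convex_cont hU))
      ((ae_restrict_iff' sl_S_meas).2 (Filter.Eventually.of_forall fun z hz => hpos _ hz (sl_lift_sum z)))
      hsub.eventuallyLE
  linarith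

/-- Strict mean inequality on the simplex. -/
lemma sl_prod_lt {m : ℕ} [NeZero m] (l : Fin m → ℝ) (h0 : ∀ i, 0 ≤ l i) (hs : ∑ i, l i = 1)
    (hne : l ≠ sl_c m) : ∏ i, l i < ∏ _i : Fin m, (m : ℝ)⁻¹ := by
  have m0 : (0:ℝ) < m := Nat.cast_pos.2 (NeZero.pos m)
  by_cases hz : ∃ i, l i = 0
  · obtain ⟨i, hi⟩ := hz
    rw [Finset.prod_eq_zero (Finset.mem_univ i) hi]
    exact Finset.prod_pos fun _ _ => inv_pos.2 m0
  push Not at hz
  have hp : ∀ i, 0 < l i := fun i => lt_of_le_of_ne (h0 i) (hz i).symm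
  obtain ⟨k, hk⟩ := Function.ne_iff.1 hne
  have hlt : ∏ i, (m * l i) < ∏ i, Real.exp (m * l i - 1) := by
    refine Finset.prod_lt_prod (fun i _ => mul_pos m0 (hp i)) (fun i _ => by
      linarith [Real.add_one_le_exp (m * l i - 1)]) ⟨k, Finset.mem_univ k, ?_⟩
    have : m * l k - 1 ≠ 0 := by
      intro h
      apply hk
      show l k = (m:ℝ)⁻¹
      field_simp
      linarith
    linarith [Real.add_one_lt_exp this]
  rw [← Real.exp_sum, Finset.sum_sub_distrib, ← Finset.mul_sum, hs] at hlt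
  simp [Finset.prod_mul_distrib] at hlt
  simp
  have hmp : (0:ℝ) < (m:ℝ) ^ m := pow_pos m0 m
  rw [← one_div, lt_div_iff₀ hmp]
  linarith [hlt]

set_option maxHeartbeats 800000 in
/-- Coercivity of the convexity functional on convex functions touching zero near the centre. -/
theorem sl_kappa (d : ℕ) : ∃ κ : ℝ, 0 < κ ∧ ∃ η : ℝ, 0 < η ∧
    ∀ U : (Fin (d + 1) → ℝ) → ℝ, ConvexOn ℝ univ U →
      (∀ l, (∀ i, 0 ≤ l i) → ∑ i, l i = 1 → 0 ≤ U l) →
      ∀ p : Fin (d + 1) → ℝ, ∑ i, p i = 1 → ‖p - sl_c (d + 1)‖ ≤ η → U p = 0 →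
      κ * sl_int d U ≤ sl_int d (fun l => U l * ((d + 2 : ℝ) * ∑ i, l i ^ 2 - 2)) := by
  rcases d with _ | d
  · refine ⟨1, one_pos, 1, one_pos, fun U hU hpos p hp _ hUp => le_of_eq ?_⟩
    have : ∀ l : Fin 1 → ℝ, ∑ i, l i = 1 → U l = 0 := by
      intro l hl
      rw [show l = p from funext fun i => by fin_cases i; simp at hl hp ⊢; linarith, hUp]
    rw [sl_int_congr (H := fun _ => 0) (fun l _ hl => this l hl),
      sl_int_congr (G := fun l => U l * _) (H := fun _ => 0) (fun l _ hl => by rw [this l hl, zero_mul]),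
      one_mul]
  set V := volume.real (sl_S (d + 1)) with hVdef
  have V0 : 0 < V := sl_vol_pos
  set M : ℝ := ((d + 2 : ℕ) : ℝ) with hMdef
  have M0 : 0 < M := by positivity
  set r0 := 1 / (4 * M) with hr0
  have r00 : 0 < r0 := by positivity
  set C1 := 1 / (2 * ((1 / (2 * M)) / ((d + 1 : ℕ) + 1))) ^ (d + 1) with hC1
  set C0 := 1 / (2 * (1 / (((d + 1 : ℕ) : ℝ) + 1))) ^ (d + 1) with hC0
  have C10 : 0 < C1 := by positivity
  have C00 : 0 < C0 := by positivity
  set ε := min r0 (min (r0 / 2) (r0 / (8 * C1 * V))) with hεdef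
  have ε0 : 0 < ε := lt_min r00 (lt_min (by positivity) (by positivity))
  set Pc : ℝ := ∏ _i : Fin (d + 2), M⁻¹ with hPc
  have Pc0 : 0 < Pc := Finset.prod_pos fun _ _ => inv_pos.2 M0
  obtain ⟨θ1, t10, t1c, hθ1⟩ : ∃ θ1, 0 ≤ θ1 ∧ θ1 < Pc ∧
      ∀ y ∈ sl_S (d + 1), ε ≤ ‖sl_lift y - sl_c (d + 2)‖ → ∏ i, sl_lift y i ≤ θ1 := by
    set F := sl_S (d + 1) ∩ {y | ε ≤ ‖sl_lift y - sl_c (d + 2)‖} with hF
    have Fc : IsCompact F := sl_S_compact.inter_right
      (isClosed_le continuous_const (sl_lift_cont.sub continuous_const).norm)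
    rcases F.eq_empty_or_nonempty with he | hne
    · exact ⟨0, le_rfl, Pc0, fun y hy hd => absurd (show y ∈ F from ⟨hy, hd⟩) (by simp [he])⟩
    · obtain ⟨z, hz, hmax⟩ := Fc.exists_isMaxOn hne
        (continuous_finsetProd _ fun i _ => (continuous_apply i).comp sl_lift_cont).continuousOn
      refine ⟨∏ i, sl_lift z i, Finset.prod_nonneg fun i _ => hz.1 i, ?_, fun y hy hd => hmax ⟨hy, hd⟩⟩
      refine sl_prod_lt _ hz.1 (sl_lift_sum z) fun h => ?_
      have := hz.2
      rw [mem_ofPred_eq, h] at this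
      simp at this
      linarith
  set θ2 := (θ1 + Pc) / 2 with hθ2
  have t20 : 0 < θ2 := by rw [hθ2]; linarith
  set Nb := {y : Fin (d + 1) → ℝ | ∀ i, 0 < sl_lift y i} ∩ {y | θ2 < ∏ i, sl_lift y i} with hNb
  have Nbo : IsOpen Nb := sl_S_open_pos.inter (isOpen_lt continuous_const
    (continuous_finsetProd _ fun i _ => (continuous_apply i).comp sl_lift_cont))
  have Nbs : Nb ⊆ sl_S (d + 1) := fun y hy i => (hy.1 i).le
  have Nb0 : 0 < volume.real Nb := by
    refine ENNReal.toReal_pos (Nbo.measure_pos volume ⟨fun _ => ((d + 2 : ℕ) : ℝ)⁻¹, ?_, ?_⟩).ne'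
      (ne_top_of_le_ne_top sl_S_finite.ne (measure_mono Nbs))
    · intro i; rw [sl_lift_center]; simp [sl_c]; positivity
    · show θ2 < _
      rw [sl_lift_center]
      exact lt_of_lt_of_eq (show θ2 < Pc by rw [hθ2]; linarith) (by simp [sl_c, hPc, hMdef]; norm_num [add_assoc])
  obtain ⟨k, hk⟩ := exists_pow_lt_of_lt_one (show 0 < θ2 ^ (d + 1) * volume.real Nb / (4 * V * V * C0) by positivity)
    (show θ1 / θ2 < 1 by rw [div_lt_one t20, hθ2]; linarith)
  set K := k + (d + 1) with hK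
  obtain ⟨C, hC0', hC⟩ := sl_mean_le (d := d) K
  set a := sl_J (fun _ => (1:ℝ)) (fun _ : Fin (d + 2) => K) with ha
  set F := ((K.factorial : ℝ) ^ (d + 2))⁻¹ with hFdef
  have F0 : 0 < F := by positivity
  set IP := sl_int (d + 1) (fun l => (∏ i, l i) ^ K) with hIP
  have IPlow : θ2 ^ K * volume.real Nb ≤ IP := by
    have h1 : ∫ _y in Nb, θ2 ^ K ≤ ∫ y in Nb, (∏ i, sl_lift y i) ^ K :=
      setIntegral_mono_on (integrableOn_const (ne_top_of_le_ne_top sl_S_finite.ne (measure_mono Nbs)))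
        ((sl_int_integrable (G := fun l => (∏ i, l i) ^ K) (by fun_prop)).mono_set Nbs)
        Nbo.measurableSet fun y hy => pow_le_pow_left₀ t20.le hy.2.le K
    rw [setIntegral_const, smul_eq_mul, mul_comm] at h1
    exact h1.trans (setIntegral_mono_set (sl_int_integrable (G := fun l => (∏ i, l i) ^ K) (by fun_prop))
      ((ae_restrict_iff' sl_S_meas).2 (Filter.Eventually.of_forall fun z hz =>
        pow_nonneg (Finset.prod_nonneg fun i _ => hz i) _)) Nbs.eventuallyLE)
  have IP0 : 0 < IP := lt_of_lt_of_le (by positivity) IPlow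
  have monoe : ∀ l : Fin (d + 2) → ℝ, sl_mono (fun _ => K) l = F * (∏ i, l i) ^ K := by
    intro l
    simp [sl_mono, Finset.prod_div_distrib, Finset.prod_pow, hFdef]
    ring
  have haE : a = F * IP := by
    rw [ha, sl_J, ← sl_int_mul]
    exact sl_int_congr fun l _ _ => by rw [monoe, one_mul]
  have a0 : 0 < a := by rw [haE]; positivity
  refine ⟨(d + 2 : ℝ) * (d + 1) * a / (2 * C + 1), by positivity, ε, ε0, ?_⟩
  intro U hU hpos p hp hpd hUp
  have Uc := sl_convex_cont hU
  let Us : (Fin (d + 2) → ℝ) → ℝ := fun l =>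
    ((Fintype.card (Equiv.Perm (Fin (d + 2))) : ℝ)⁻¹) * ∑ σ : Equiv.Perm (Fin (d + 2)), U (l ∘ σ)
  set G := (Fintype.card (Equiv.Perm (Fin (d + 2))) : ℝ) with hG
  have G0 : 0 < G := Nat.cast_pos.2 Fintype.card_pos
  have permc : ∀ σ : Equiv.Perm (Fin (d + 2)), Continuous fun l : Fin (d + 2) → ℝ => U (l ∘ σ) :=
    fun σ => Uc.comp (continuous_pi fun i => continuous_apply _)
  have hUs : ConvexOn ℝ univ Us := by
    refine ⟨convex_univ, fun x _ y _ s t hs ht hst => ?_⟩
    simp only [Us, smul_eq_mul]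
    rw [← mul_assoc, ← mul_assoc, mul_comm s, mul_comm t, mul_assoc, mul_assoc, ← mul_add,
      Finset.mul_sum _ _ s, Finset.mul_sum _ _ t, ← Finset.sum_add_distrib]
    exact mul_le_mul_of_nonneg_left (Finset.sum_le_sum fun σ _ =>
      hU.2 (mem_univ (x ∘ σ)) (mem_univ (y ∘ σ)) hs ht hst) (inv_nonneg.2 G0.le)
  have hUsym : ∀ (τ : Equiv.Perm (Fin (d + 2))) l, Us (l ∘ τ) = Us l := by
    intro τ l
    simp only [Us]
    congr 1
    exact (Equiv.sum_comp (Equiv.mulLeft τ) fun σ : Equiv.Perm (Fin (d + 2)) => U (l ∘ σ))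
  have permpos : ∀ (σ : Equiv.Perm (Fin (d + 2))) (l : Fin (d + 2) → ℝ),
      (∀ i, 0 ≤ l i) → ∑ i, l i = 1 → 0 ≤ U (l ∘ σ) := fun σ l h1 h2 =>
    hpos _ (fun i => h1 _) ((Equiv.sum_comp σ l).trans h2)
  have hUspos : ∀ l, (∀ i, 0 ≤ l i) → ∑ i, l i = 1 → 0 ≤ Us l := fun l h1 h2 =>
    mul_nonneg (inv_nonneg.2 G0.le) (Finset.sum_nonneg fun σ _ => permpos σ l h1 h2)
  have hsym_int : ∀ W : (Fin (d + 2) → ℝ) → ℝ, Continuous W →
      (∀ (σ : Equiv.Perm (Fin (d + 2))) l, W (l ∘ σ) = W l) →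
      sl_int (d + 1) (fun l => Us l * W l) = sl_int (d + 1) (fun l => U l * W l) := by
    intro W Wc hW
    have e : (fun l => Us l * W l) = fun l => G⁻¹ * ∑ σ : Equiv.Perm (Fin (d + 2)), U (l ∘ σ) * W (l ∘ σ) :=
      funext fun l => by simp only [Us, hW, mul_assoc, Finset.sum_mul]; rfl
    rw [e, sl_int_mul, sl_int_sum Finset.univ (fun (σ : Equiv.Perm (Fin (d + 2))) l => U (l ∘ σ) * W (l ∘ σ))
      (fun σ _ => (permc σ).mul (Wc.comp (continuous_pi fun i => continuous_apply _))),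
      Finset.sum_congr rfl (fun σ _ => sl_int_perm σ (fun l => U l * W l))]
    simp [hG]
  set I := sl_int (d + 1) U with hI
  have hIs : sl_int (d + 1) Us = I := by
    simpa using hsym_int (fun _ => 1) continuous_const (fun _ _ => rfl)
  have I0 : 0 ≤ I := by
    have := sl_int_mono (G := fun _ => 0) (H := U) continuous_const Uc hpos
    rwa [sl_int_const, mul_zero] at this
  -- near the centre
  set s := (ε + ε) / r0 with hs
  have s0 : 0 < s := by positivity
  have s1 : s ≤ 1 := by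
    rw [hs, div_le_one r00]
    have : ε ≤ r0 / 2 := (min_le_right _ _).trans (min_le_left _ _)
    linarith
  have hnearU : ∀ z : Fin (d + 2) → ℝ, ∑ i, z i = 1 → ‖z - sl_c (d + 2)‖ ≤ ε → U z ≤ s * (C1 * I) := by
    intro z hz hzd
    set x := p + s⁻¹ • (z - p) with hx
    have hxz : z = (1 - s) • p + s • x := by
      rw [hx]; funext i; simp; field_simp; ring
    have hd' : ‖z - p‖ ≤ ε + ε := by
      have := norm_sub_le (z - sl_c (d + 2)) (p - sl_c (d + 2))
      rw [sub_sub_sub_cancel_right] at this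
      linarith
    have hxs : ∑ i, x i = 1 := by
      simp [hx, Finset.sum_add_distrib, ← Finset.mul_sum, Finset.sum_sub_distrib, hz, hp]
    have hxl : ∀ i, 1 / (2 * M) ≤ x i := by
      intro i
      have a1 : |p i - (sl_c (d + 2)) i| ≤ ε := (norm_le_pi_norm (p - sl_c (d + 2)) i).trans hpd
      have a2 : |z i - p i| ≤ ε + ε := (norm_le_pi_norm (z - p) i).trans hd'
      have a3 : |s⁻¹ * (z i - p i)| ≤ r0 := by
        rw [abs_mul, abs_inv, abs_of_pos s0, inv_mul_le_iff₀ s0, hs]
        rw [div_mul_cancel₀ _ r00.ne']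
        exact a2
      have a4 : ε ≤ r0 := min_le_left _ _
      have := abs_le.1 a1; have := abs_le.1 a3
      have e1 : (sl_c (d + 2)) i = M⁻¹ := rfl
      have e2 : M⁻¹ - r0 - r0 = 1 / (2 * M) := by rw [hr0]; field_simp; ring
      simp only [hx, Pi.add_apply, Pi.smul_apply, Pi.sub_apply, smul_eq_mul]
      linarith
    have hb := sl_interior_bound hU hpos (y := Fin.tail x) (show 0 < 1 / (2 * M) by positivity)
      (by rw [sl_lift_tail x hxs]; exact hxl)
    rw [sl_lift_tail x hxs] at hb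
    have hxb : U x ≤ C1 * I := by
      rw [hC1, div_mul_eq_mul_div, one_mul, le_div_iff₀ (by positivity)]
      exact hb
    have := hU.2 (mem_univ p) (mem_univ x) (show 0 ≤ 1 - s by linarith) s0.le (by ring)
    rw [← hxz, smul_eq_mul, smul_eq_mul, hUp, mul_zero, zero_add] at this
    exact this.trans (mul_le_mul_of_nonneg_left hxb s0.le)
  have hnear : ∀ z : Fin (d + 2) → ℝ, ∑ i, z i = 1 → ‖z - sl_c (d + 2)‖ ≤ ε → Us z ≤ s * (C1 * I) := by
    intro z hz hzd
    simp only [Us]
    rw [inv_mul_le_iff₀ G0]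
    refine (Finset.sum_le_sum fun (σ : Equiv.Perm (Fin (d + 2))) _ => hnearU (z ∘ σ) ((Equiv.sum_comp σ z).trans hz) ?_).trans (by simp [hG])
    refine (pi_norm_le_iff_of_nonneg ε0.le).2 fun i => ?_
    exact (norm_le_pi_norm (z - sl_c (d + 2)) (σ i)).trans hzd
  -- far from the centre
  set Pd : (Fin (d + 2) → ℝ) → ℝ := fun l => ∏ i, l i with hPd
  have hfar : ∀ l : Fin (d + 2) → ℝ, (∀ i, 0 ≤ l i) → ∑ i, l i = 1 →
      Us l * Pd l ^ (d + 1) ≤ C0 * I := by
    intro l hl hls
    rcases (Finset.prod_nonneg fun i (_ : i ∈ Finset.univ) => hl i).eq_or_lt with h | h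
    · simp only [hPd]
      rw [← h, zero_pow (Nat.succ_ne_zero d), mul_zero]
      positivity
    have hle : ∀ i, Pd l ≤ sl_lift (Fin.tail l) i := by
      intro i
      rw [sl_lift_tail l hls]
      simp only [hPd]
      rw [← Finset.mul_prod_erase _ _ (Finset.mem_univ i)]
      refine mul_le_of_le_one_right (hl i) (Finset.prod_le_one (fun j _ => hl j) fun j _ => ?_)
      exact hls ▸ Finset.single_le_sum (fun j _ => hl j) (Finset.mem_univ j)
    have hb := sl_interior_bound hUs hUspos (y := Fin.tail l) h hle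
    rw [sl_lift_tail l hls, hIs] at hb
    rw [hC0, div_mul_eq_mul_div, one_mul, le_div_iff₀ (by positivity)]
    refine le_of_eq_of_le ?_ hb
    rw [mul_assoc, ← mul_pow]
    congr 2
    ring
  have Usc := sl_convex_cont hUs
  have hJ : sl_int (d + 1) (fun l => Us l * Pd l ^ K) ≤ s * (C1 * I) * IP + C0 * I * θ1 ^ k * V := by
    have : sl_int (d + 1) (fun l => Us l * Pd l ^ K)
        ≤ sl_int (d + 1) (fun l => s * (C1 * I) * Pd l ^ K + C0 * I * θ1 ^ k) := by
      refine sl_int_mono (by fun_prop) (by fun_prop) fun l hl hls => ?_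
      have P0 : 0 ≤ Pd l := Finset.prod_nonneg fun i _ => hl i
      rcases le_total ‖l - sl_c (d + 2)‖ ε with hn | hn
      · have := mul_le_mul_of_nonneg_right (hnear l hls hn) (pow_nonneg P0 K)
        have : 0 ≤ C0 * I * θ1 ^ k := by positivity
        linarith
      · have hP : Pd l ≤ θ1 := by
          have := hθ1 (Fin.tail l) (by intro i; rw [sl_lift_tail l hls]; exact hl i)
            (by rw [sl_lift_tail l hls]; exact hn)
          rwa [sl_lift_tail l hls] at this
        have e : Us l * Pd l ^ K = (Us l * Pd l ^ (d + 1)) * Pd l ^ k := by rw [hK, pow_add]; ring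
        rw [e]
        have h1 := mul_le_mul (hfar l hl hls) (pow_le_pow_left₀ P0 hP k) (pow_nonneg P0 k) (by positivity)
        have : 0 ≤ s * (C1 * I) * Pd l ^ K := by positivity
        linarith
    refine this.trans (le_of_eq ?_)
    rw [sl_int_add (by fun_prop) continuous_const, sl_int_mul, sl_int_const]
    simp only [hIP, hPd, hVdef]
    ring
  have hsV : s * C1 * V ≤ 1 / 4 := by
    have h := (min_le_right r0 _).trans (min_le_right (r0 / 2) (r0 / (8 * C1 * V)))
    rw [← hεdef, le_div_iff₀ (by positivity)] at h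
    rw [hs, div_mul_eq_mul_div, div_mul_eq_mul_div, div_le_iff₀ r00]
    nlinarith
  have htail : C0 * θ1 ^ k * V * V ≤ IP / 4 := by
    rw [div_pow, div_lt_div_iff₀ (by positivity) (by positivity)] at hk
    have e : θ2 ^ K = θ2 ^ k * θ2 ^ (d + 1) := by rw [hK, pow_add]
    nlinarith [IPlow]
  have hmain := hC Us hUs hUsym
  rw [hIs] at hmain
  have hJe : sl_J Us (fun _ : Fin (d + 2) => K) = F * sl_int (d + 1) (fun l => Us l * Pd l ^ K) := by
    rw [sl_J, ← sl_int_mul]
    exact sl_int_congr fun l _ _ => by rw [monoe]; simp only [hPd]; ring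
  rw [hJe] at hmain
  have hb1 : V * (F * sl_int (d + 1) (fun l => Us l * Pd l ^ K)) ≤ a * I / 2 := by
    rw [haE]
    have := mul_le_mul_of_nonneg_left hJ (mul_nonneg V0.le F0.le)
    have q1 := mul_le_mul_of_nonneg_left hsV (show 0 ≤ F * IP * I by positivity)
    have q2 := mul_le_mul_of_nonneg_left htail (show 0 ≤ F * I by positivity)
    calc V * (F * sl_int (d + 1) (fun l => Us l * Pd l ^ K))
        = V * F * sl_int (d + 1) (fun l => Us l * Pd l ^ K) := by ring
      _ ≤ V * F * (s * (C1 * I) * IP + C0 * I * θ1 ^ k * V) := this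
      _ = F * IP * I * (s * C1 * V) + F * I * (C0 * θ1 ^ k * V * V) := by ring
      _ ≤ F * IP * I * (1 / 4) + F * I * (IP / 4) := add_le_add q1 q2
      _ = F * IP * I / 2 := by ring
  have hg0 : 0 ≤ sl_pairGap Us := by
    rw [sl_pairGap_fibre Usc]
    refine setIntegral_nonneg sl_S_meas fun r hr => ?_
    simpa using (sl_pair_fibre _ (sl_fibre_convex hUs (sl_lift r 0) r) 0 0 (r := 1) (hr 0)
      (sl_lift_le_one hr 0) zero_le_one le_rfl).1
  have hgap := sl_gap_eq Usc hUsym
  rw [hsym_int (fun l => (d + 3 : ℝ) * ∑ i, l i ^ 2 - 2) (by fun_prop)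
    (fun σ l => by simp only [Function.comp_apply]; rw [Equiv.sum_comp σ (fun i => l i ^ 2)])] at hgap
  rw [show (((d + 1 : ℕ) : ℝ) + 2) = (d + 3 : ℝ) by push_cast; ring, hgap,
    div_mul_eq_mul_div, div_le_iff₀ (by positivity)]
  have : a * I ≤ sl_pairGap Us * (2 * C + 1) := by nlinarith
  nlinarith [mul_le_mul_of_nonneg_left this (show (0:ℝ) ≤ (d + 2) * (d + 1) by positivity)]

end

end Vale.Agent.P254L
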