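import Vale.Agent.P254L.Facet

open MeasureTheory Set
open scoped Pointwise

namespace Vale.Agent.P254L

noncomputable section

variable {d : ℕ}

/-- Points with barycentric coordinates at least `δ` lie in a convex body close to the simplex. -/
lemma sl_inner_of_near {K : Set (Fin (d + 1) → ℝ)} (hKc : Convex ℝ K) (hKk : IsCompact K)
    {δ ε : ℝ} (hεδ : ε * ((d : ℝ) + 2) < δ) (hε : 0 < ε)
    (hnear : ∀ y ∈ sl_S (d + 1), ∃ k ∈ K, ‖y - k‖ ≤ ε)
    {z : Fin (d + 1) → ℝ} (hz : ∀ i, δ ≤ sl_lift z i) : z ∈ K := by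
  by_contra hzK
  obtain ⟨f, u, hfu, huz⟩ := geometric_hahn_banach_closed_point hKc hKk.isClosed hzK
  set r := δ / ((d : ℝ) + 2) with hr
  have hεr : ε < r := by rw [hr, lt_div_iff₀ (by positivity)]; exact hεδ
  let e : Fin (d + 1) → ℝ := fun i => f (Pi.single i 1)
  let v : Fin (d + 1) → ℝ := fun i => if 0 ≤ e i then 1 else -1
  have hf : ∀ w : Fin (d + 1) → ℝ, f w = ∑ i, w i * e i := by
    intro w
    conv_lhs => rw [pi_eq_sum_univ' w, map_sum]
    refine Finset.sum_congr rfl fun i _ => ?_
    rw [map_smul, smul_eq_mul]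
  have hve : ∀ i, v i * e i = |e i| := fun i => by
    simp only [v]; split_ifs with h
    · rw [abs_of_nonneg h]; ring
    · rw [abs_of_nonpos (le_of_not_ge h)]; ring
  have hv : ∀ i, |v i| ≤ 1 := fun i => by simp only [v]; split_ifs <;> simp
  have hfv : f v = ∑ i, |e i| := by rw [hf]; exact Finset.sum_congr rfl fun i _ => hve i
  have hbound : ∀ w, f w ≤ ‖w‖ * ∑ i, |e i| := fun w => by
    rw [hf, Finset.mul_sum]
    refine Finset.sum_le_sum fun i _ => (le_abs_self _).trans ?_
    rw [abs_mul]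
    exact mul_le_mul_of_nonneg_right (norm_le_pi_norm w i) (abs_nonneg _)
  have r0 : 0 < r := hε.trans hεr
  have hy : z + r • v ∈ sl_S (d + 1) := by
    intro i
    refine Fin.cases ?_ (fun j => ?_) i
    · have h0 := hz 0
      simp only [sl_lift, Fin.cons_zero, Pi.add_apply, Pi.smul_apply, smul_eq_mul, Finset.sum_add_distrib,
        ← Finset.mul_sum] at h0 ⊢
      have : ∑ j, v j ≤ ∑ _j : Fin (d + 1), (1:ℝ) := Finset.sum_le_sum fun j _ => (le_abs_self _).trans (hv j)
      simp at this
      have h2 : r * ∑ j, v j ≤ r * ((d:ℝ) + 1) := mul_le_mul_of_nonneg_left this r0.le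
      have h3 : r * ((d : ℝ) + 2) = δ := by rw [hr]; field_simp
      linarith
    · have h0 := hz j.succ
      simp only [sl_lift, Fin.cons_succ, Pi.add_apply, Pi.smul_apply, smul_eq_mul] at h0 ⊢
      have h2 : -r ≤ r * v j := by
        have := mul_le_mul_of_nonneg_left (abs_le.1 (hv j)).1 r0.le
        linarith
      have h3 : r * ((d : ℝ) + 2) = δ := by rw [hr]; field_simp
      nlinarith [mul_nonneg (Nat.cast_nonneg (α := ℝ) d) r0.le]
  obtain ⟨k, hk, hyk⟩ := hnear _ hy
  have h1 := hbound (z + r • v - k)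
  rw [map_sub, map_add, map_smul, hfv, smul_eq_mul] at h1
  have h2 := mul_le_mul_of_nonneg_right hyk (Finset.sum_nonneg fun i (_ : i ∈ Finset.univ) => abs_nonneg (e i))
  have h3 := mul_le_mul_of_nonneg_right hεr.le (Finset.sum_nonneg fun i (_ : i ∈ Finset.univ) => abs_nonneg (e i))
  linarith [hfu k hk]

lemma sl_lift_diff (x y : Fin (d + 1) → ℝ) (i : Fin (d + 2)) :
    |sl_lift x i - sl_lift y i| ≤ ((d : ℝ) + 2) * ‖x - y‖ := by
  have hb : ∀ j, |x j - y j| ≤ ‖x - y‖ := fun j => norm_le_pi_norm (x - y) j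
  have n0 := norm_nonneg (x - y)
  have d0 := Nat.cast_nonneg (α := ℝ) d
  refine Fin.cases ?_ (fun j => ?_) i
  · simp only [sl_lift, Fin.cons_zero]
    rw [show 1 - ∑ i, x i - (1 - ∑ i, y i) = -(∑ i, (x i - y i)) by rw [Finset.sum_sub_distrib]; ring, abs_neg]
    refine (Finset.abs_sum_le_sum_abs _ _).trans ((Finset.sum_le_sum fun j _ => hb j).trans ?_)
    simp; nlinarith
  · simp only [sl_lift, Fin.cons_succ]
    nlinarith [hb j]

/-- Solvability of diagonally dominant systems, with bounds. -/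
lemma sl_dominant {m : ℕ} (P : Fin m → Fin m → ℝ) {p : ℝ} (hp : (m : ℝ) * p ≤ 1/2)
    (hP : ∀ a j, |P a j - (if a = j then 1 else 0)| ≤ p) (v : Fin m → ℝ) :
    (∀ a, |∑ j, P a j * v j - v a| ≤ m * p * ‖v‖) ∧ ‖v‖ ≤ 2 * ‖fun a => ∑ j, P a j * v j‖ := by
  have h1 : ∀ a, |∑ j, P a j * v j - v a| ≤ m * p * ‖v‖ := by
    intro a
    have e : ∑ j, P a j * v j - v a = ∑ j, (P a j - (if a = j then 1 else 0)) * v j := by
      simp [sub_mul, Finset.sum_sub_distrib]
    rw [e]
    refine (Finset.abs_sum_le_sum_abs _ _).trans ?_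
    refine (Finset.sum_le_sum (g := fun _ => p * ‖v‖) fun j _ => ?_).trans (by simp; ring_nf; exact le_rfl)
    rw [abs_mul]
    exact mul_le_mul (hP a j) (norm_le_pi_norm v j) (abs_nonneg _) ((abs_nonneg _).trans (hP a j))
  refine ⟨h1, ?_⟩
  set w : Fin m → ℝ := fun a => ∑ j, P a j * v j with hw
  have h2 : ‖v‖ ≤ ‖w‖ + 1/2 * ‖v‖ := by
    refine (pi_norm_le_iff_of_nonneg (by positivity)).2 fun a => ?_
    have := norm_le_pi_norm w a
    have := (h1 a).trans (mul_le_mul_of_nonneg_right hp (norm_nonneg v))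
    rw [Real.norm_eq_abs] at *
    have := abs_sub_abs_le_abs_sub (v a) (∑ j, P a j * v j)
    rw [abs_sub_comm] at this
    simp only [hw] at *
    linarith
  linarith

set_option maxHeartbeats 1600000 in
/-- A body close to the simplex is, after an affine change, inside it, touching every facet near
its centre and containing a large homothetic copy. -/
theorem sl_normalise (d : ℕ) {η : ℝ} (hη : 0 < η) (hη1 : η ≤ 1) : ∃ ε : ℝ, 0 < ε ∧
    ∀ K : Set (Fin (d + 1) → ℝ), Convex ℝ K → IsCompact K → K.Nonempty →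
      Metric.hausdorffDist K (sl_S (d + 1)) < ε →
      ∃ (L : (Fin (d + 1) → ℝ) ≃ₗ[ℝ] (Fin (d + 1) → ℝ)) (b : Fin (d + 1) → ℝ),
        (fun x => L x + b) '' K ⊆ sl_S (d + 1) ∧
        (∀ x ∈ sl_S (d + 1), sl_cc d + (1 - η) • (x - sl_cc d) ∈ (fun x => L x + b) '' K) ∧
        (∀ a : Fin (d + 2), ∃ p : Fin (d + 1) → ℝ, ∑ i, p i = 1 ∧ ‖p - sl_c (d + 1)‖ ≤ η ∧
          Fin.tail ((Fin.cons 0 p : Fin (d + 2) → ℝ) ∘ Equiv.swap 0 a) ∈ (fun x => L x + b) '' K) := by
  set N : ℝ := (d : ℝ) + 2 with hN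
  have N2 : 2 ≤ N := by rw [hN]; linarith [Nat.cast_nonneg (α := ℝ) d]
  have N0 : 0 < N := by linarith
  set δ := min η 1 / (100 * N ^ 6) with hδ
  have δ0 : 0 < δ := div_pos (lt_min hη one_pos) (by positivity)
  have hδ1 : δ * (100 * N ^ 6) ≤ min η 1 := le_of_eq (by rw [hδ]; field_simp)
  refine ⟨δ / (2 * N), by positivity, fun K hKc hKk hKne hK => ?_⟩
  have hS0 : (sl_S (d + 1)).Nonempty := ⟨0, fun i => by refine Fin.cases ?_ (fun j => ?_) i <;> simp [sl_lift]⟩
  have hfin := Metric.hausdorffEDist_ne_top_of_nonempty_of_bounded hKne hS0 hKk.isBounded sl_S_compact.isBounded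
  have houter : ∀ x ∈ K, ∀ i, -δ ≤ sl_lift x i := by
    intro x hx i
    obtain ⟨y, hy, hxy⟩ := Metric.exists_dist_lt_of_hausdorffDist_lt hx hK hfin
    rw [dist_eq_norm] at hxy
    have := (abs_le.1 (sl_lift_diff x y i)).1
    have h2 : N * ‖x - y‖ ≤ N * (δ / (2 * N)) := mul_le_mul_of_nonneg_left hxy.le N0.le
    have h3 : N * (δ / (2 * N)) = δ / 2 := by field_simp
    linarith [hy i]
  have hinner : ∀ z, (∀ i, δ ≤ sl_lift z i) → z ∈ K := fun z hz =>
    sl_inner_of_near hKc hKk (ε := δ / (2 * N)) (by rw [← hN]; field_simp; linarith) (by positivity)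
      (fun y hy => by
        obtain ⟨k, hk, hky⟩ := Metric.exists_dist_lt_of_hausdorffDist_lt' hy hK hfin
        exact ⟨k, hk, by rw [← dist_eq_norm, dist_comm]; exact hky.le⟩) hz
  have hm6 : ∀ k : ℕ, k ≤ 6 → N ^ k ≤ N ^ 6 := fun k hk => pow_le_pow_right₀ (by linarith) hk
  have hsmall : δ * (100 * N ^ 6) ≤ 1 := hδ1.trans (min_le_right _ _)
  have hsmη : δ * (100 * N ^ 6) ≤ η := hδ1.trans (min_le_left _ _)
  have scale : ∀ (C : ℝ) (k : ℕ), 0 ≤ C → C ≤ 100 → k ≤ 6 → δ * (C * N ^ k) ≤ δ * (100 * N ^ 6) :=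
    fun C k hC hC' hk => mul_le_mul_of_nonneg_left (mul_le_mul hC' (hm6 k hk) (by positivity) (by norm_num)) δ0.le
  set θ := N * δ with hθ
  have θ4 : θ ≤ 1/4 := by
    have := (scale 4 1 (by norm_num) (by norm_num) (by norm_num)).trans hsmall
    rw [hθ]; linarith [this, show δ * (4 * N ^ 1) = 4 * (N * δ) by ring]
  set cc := sl_cc d with hcc
  have hcl : sl_lift cc = fun _ => N⁻¹ := by
    funext i
    refine Fin.cases ?_ (fun j => ?_) i
    · simp [sl_lift, hcc, sl_cc, hN]; field_simp; ring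
    · simp [sl_lift, hcc, sl_cc, hN]
  have lift_comb : ∀ (s : ℝ) (x : Fin (d + 1) → ℝ) i,
      sl_lift (cc + s • (x - cc)) i = N⁻¹ + s * (sl_lift x i - N⁻¹) := by
    intro s x i
    have := congrFun hcl i
    refine Fin.cases ?_ (fun j => ?_) i
    · have := congrFun hcl 0
      simp [sl_lift, Finset.sum_add_distrib, ← Finset.mul_sum, Finset.sum_sub_distrib] at this ⊢
      linear_combination (1 - s) * this
    · simp [sl_lift, hcc, sl_cc, hN]
  set K0 : Set (Fin (d + 1) → ℝ) := (fun v => cc + v) ⁻¹' K with hK0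
  have K0c : Convex ℝ K0 := hKc.translate_preimage_right _
  have hopen : IsOpen {v : Fin (d + 1) → ℝ | ∀ i, δ < sl_lift (cc + v) i} := by
    simp only [Set.ofPred_forall]
    exact isOpen_iInter_of_finite fun i => isOpen_lt continuous_const
      ((continuous_apply i).comp (sl_lift_cont.comp (by fun_prop)))
  have K0n : K0 ∈ nhds (0 : Fin (d + 1) → ℝ) := by
    refine Filter.mem_of_superset (hopen.mem_nhds fun i => ?_) fun v hv => hinner _ fun i => (hv i).le
    rw [add_zero, hcl]
    show δ < N⁻¹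
    rw [← one_div, lt_div_iff₀ N0]
    linarith [show δ * N = θ by rw [hθ]; ring]
  have K0a : Absorbent ℝ K0 := absorbent_nhds_zero K0n
  -- facet functionals
  have facet : ∀ a : Fin (d + 2), ∃ (M : Fin (d + 2) → ℝ) (y : Fin (d + 1) → ℝ), y ∈ K ∧
      (∀ x ∈ K, 0 ≤ ∑ j, sl_lift x j * M j) ∧ ∑ j, sl_lift y j * M j = 0 ∧
      (∀ j, |M j - (if a = j then N else 0)| ≤ 4 * N ^ 2 * θ) ∧
      (∀ j, |sl_lift y j - (if j = a then 0 else ((d : ℝ) + 1)⁻¹)| ≤ θ) := by
    intro a
    let fa : Fin (d + 2) → ℝ := fun j => if j = a then 0 else ((d : ℝ) + 1)⁻¹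
    have fas : ∑ j, fa j = 1 := by
      rw [← Finset.add_sum_erase _ _ (Finset.mem_univ a), Finset.sum_congr rfl
        (fun j hj => show fa j = ((d : ℝ) + 1)⁻¹ from if_neg (Finset.ne_of_mem_erase hj))]
      simp [fa]; field_simp
    set v := Fin.tail fa - cc with hv
    have hfv : sl_lift (cc + v) = fa := by rw [hv, add_sub_cancel]; exact sl_lift_tail fa fas
    have fa0 : ∀ j, 0 ≤ fa j ∧ fa j ≤ 1 := fun j => by
      simp only [fa]; split_ifs
      · norm_num
      · exact ⟨by positivity, inv_le_one_of_one_le₀ (by linarith [Nat.cast_nonneg (α := ℝ) d])⟩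
    have hline : ∀ (s : ℝ) i, sl_lift (cc + s • v) i = N⁻¹ + s * (fa i - N⁻¹) := by
      intro s i
      rw [hv, lift_comb, sl_lift_tail fa fas]
    set t := gauge K0 v with ht
    have tup : (1 - θ) * t ≤ 1 := by
      have hm : (1 - θ) • v ∈ K0 := hinner _ fun i => by
        rw [hline]
        have h1 := mul_le_mul_of_nonneg_left (fa0 i).1 (show (0:ℝ) ≤ 1 - θ by linarith)
        have h2 : θ * N⁻¹ = δ := by rw [hθ]; field_simp
        linarith
      have := gauge_le_one_of_mem hm
      rwa [gauge_smul_of_nonneg (by linarith), smul_eq_mul, ← ht] at this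
    have tlow : 1 ≤ (1 + θ) * t := by
      by_contra hlt
      rw [not_le] at hlt
      have : t < 1 / (1 + θ) := by rw [lt_div_iff₀ (by positivity)]; linarith
      obtain ⟨s, s0, s1, hs⟩ := exists_lt_of_gauge_lt K0a this
      rw [mem_smul_set_iff_inv_smul_mem₀ s0.ne'] at hs
      have h := houter _ hs a
      rw [hline] at h
      simp [fa] at h
      have h1 : 1 + θ < s⁻¹ := by
        rw [lt_div_iff₀ (by positivity)] at s1
        rw [← one_div, lt_div_iff₀ s0]; linarith
      have h2 : (1 + θ) * N⁻¹ < s⁻¹ * N⁻¹ := mul_lt_mul_of_pos_right h1 (inv_pos.2 N0)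
      have h3 : θ * N⁻¹ = δ := by rw [hθ]; field_simp
      linarith
    have t0 : 0 < t := by
      rcases (gauge_nonneg (s := K0) v).eq_or_lt with h | h
      · rw [← ht] at h; rw [← h, mul_zero] at tlow; linarith
      · exact h
    set y := cc + t⁻¹ • v with hy
    have gy : gauge K0 (t⁻¹ • v) = 1 := by
      rw [gauge_smul_of_nonneg (inv_nonneg.2 t0.le), smul_eq_mul, ← ht, inv_mul_cancel₀ t0.ne']
    have K0cl : IsClosed K0 := hKk.isClosed.preimage (continuous_const.add continuous_id)
    have yK : y ∈ K := by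
      have := (gauge_le_one_iff_mem_closure K0c K0n).1 gy.le
      rwa [K0cl.closure_eq] at this
    have ynot : y ∉ interior K := by
      intro h
      have : t⁻¹ • v ∈ interior K0 := by
        rw [hK0]
        exact (Homeomorph.addLeft cc).preimage_interior K ▸ (show t⁻¹ • v ∈ Homeomorph.addLeft cc ⁻¹' interior K from h)
      have := interior_subset_gauge_lt_one K0 this
      simp [gy] at this
    have ccint : cc ∈ interior K := by
      have : (0 : Fin (d + 1) → ℝ) ∈ interior K0 := mem_interior_iff_mem_nhds.2 K0n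
      have h := (Homeomorph.addLeft cc).preimage_interior K
      rw [hK0] at this
      rw [show ((fun v => cc + v) ⁻¹' K) = Homeomorph.addLeft cc ⁻¹' K from rfl, ← h] at this
      simpa using this
    obtain ⟨f, hf⟩ := geometric_hahn_banach_open_point hKc.interior isOpen_interior ynot
    have hfK : ∀ x ∈ K, f x ≤ f y := by
      have hcl2 : K ⊆ closure (interior K) := by
        rw [hKc.closure_interior_eq_closure_of_nonempty_interior ⟨cc, ccint⟩]; exact subset_closure
      exact fun x hx => closure_minimal (fun z hz => (hf z hz).le) (isClosed_le f.continuous continuous_const) (hcl2 hx)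
    have hden : 0 < f y - f cc := by linarith [hf cc ccint]
    let e : Fin (d + 2) → (Fin (d + 1) → ℝ) := fun j => Fin.tail (Pi.single j (1:ℝ) : Fin (d + 2) → ℝ)
    let M : Fin (d + 2) → ℝ := fun j => (f y - f (e j)) / (f y - f cc)
    have phi : ∀ x, ∑ j, sl_lift x j * M j = (f y - f x) / (f y - f cc) := by
      intro x
      have hx : ∑ j, sl_lift x j • e j = x := by
        funext i
        simp only [Finset.sum_apply, Pi.smul_apply, smul_eq_mul, e, Fin.tail]
        rw [Finset.sum_eq_single i.succ (fun j _ hj => by rw [Pi.single_eq_of_ne hj.symm, mul_zero])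
          (fun h => absurd (Finset.mem_univ _) h)]
        simp [sl_lift]
      simp only [M, ← mul_div_assoc, ← Finset.sum_div, mul_sub, Finset.sum_sub_distrib, ← Finset.sum_mul,
        sl_lift_sum, one_mul]
      congr 2
      conv_rhs => rw [← hx, map_sum]
      exact Finset.sum_congr rfl fun j _ => by rw [map_smul, smul_eq_mul]
    have phic : ∑ j, M j = N := by
      have := phi cc
      rw [hcl, div_self hden.ne', ← Finset.mul_sum] at this
      field_simp at this
      linarith
    have Mlow : ∀ j, -(2 * θ) ≤ M j := by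
      intro j
      have hj : sl_lift (e j) = Pi.single j 1 := sl_lift_tail _ (by simp)
      have hm : cc + (1 - θ) • (e j - cc) ∈ K := hinner _ fun i => by
        rw [lift_comb, hj]
        have h0 : (0:ℝ) ≤ (Pi.single j 1 : Fin (d + 2) → ℝ) i := by by_cases h : i = j <;> simp [h]
        have h1 := mul_le_mul_of_nonneg_left h0 (show (0:ℝ) ≤ 1 - θ by linarith)
        have h2 : θ * N⁻¹ = δ := by rw [hθ]; field_simp
        linarith
      have h := hfK _ hm
      rw [map_add, map_smul, map_sub, smul_eq_mul] at h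
      simp only [M]
      rw [le_div_iff₀ hden]
      have h1 : (1 - θ) * (f y - f (e j)) ≥ -θ * (f y - f cc) := by linarith
      have h2 : 0 ≤ θ * (1 - 2 * θ) * (f y - f cc) :=
        mul_nonneg (mul_nonneg (by positivity) (by linarith)) hden.le
      refine le_of_mul_le_mul_left ?_ (show (0:ℝ) < 1 - θ by linarith)
      linarith
    have Mfa : ∑ j, fa j * M j ≤ 2 * θ := by
      rw [← hfv, phi, div_le_iff₀ hden]
      have e1 : f (cc + v) = f cc + t * (f y - f cc) := by
        rw [hy, map_add, map_add, map_smul, smul_eq_mul]; field_simp; ring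
      rw [e1]
      have t2 : t ≤ 2 := by
        have := mul_le_mul_of_nonneg_right (show (1:ℝ)/2 ≤ 1 - θ by linarith) t0.le
        linarith
      have t3 : 1 - t ≤ 2 * θ := by
        have := mul_le_mul_of_nonneg_left t2 (show 0 ≤ θ by positivity)
        linarith
      have := mul_le_mul_of_nonneg_right t3 hden.le
      linarith
    have Msum : ∑ j ∈ Finset.univ.erase a, M j ≤ 2 * N * θ := by
      rw [← Finset.add_sum_erase _ _ (Finset.mem_univ a), show fa a = 0 from if_pos rfl, zero_mul, zero_add,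
        Finset.sum_congr rfl (fun j hj => show fa j * M j = ((d : ℝ) + 1)⁻¹ * M j by
          rw [show fa j = ((d : ℝ) + 1)⁻¹ from if_neg (Finset.ne_of_mem_erase hj)]), ← Finset.mul_sum,
        inv_mul_le_iff₀ (by positivity)] at Mfa
      rw [hN]; nlinarith [mul_nonneg (show (0:ℝ) ≤ θ by positivity) (show (0:ℝ) ≤ 1 by norm_num)]
    have Moff : ∀ j, j ≠ a → M j ≤ 4 * N * θ := by
      intro j hj
      have hm : j ∈ Finset.univ.erase a := Finset.mem_erase.2 ⟨hj, Finset.mem_univ j⟩
      rw [← Finset.add_sum_erase _ _ hm] at Msum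
      have h1 : ((Finset.univ.erase a).erase j).card • (-(2 * θ)) ≤ ∑ k ∈ (Finset.univ.erase a).erase j, M k :=
        Finset.card_nsmul_le_sum _ _ _ fun k _ => Mlow k
      rw [nsmul_eq_mul] at h1
      have h2 : (((Finset.univ.erase a).erase j).card : ℝ) ≤ N := by
        have h2a : ((Finset.univ.erase a).erase j).card ≤ Fintype.card (Fin (d + 2)) := Finset.card_le_univ _
        rw [Fintype.card_fin] at h2a
        have := Nat.cast_le (α := ℝ).2 h2a
        push_cast at this; rw [hN]; exact this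
      nlinarith [mul_le_mul_of_nonneg_right h2 (show (0:ℝ) ≤ 2 * θ by positivity)]
    have Mdiag : |M a - N| ≤ 4 * N ^ 2 * θ := by
      rw [← Finset.add_sum_erase _ _ (Finset.mem_univ a)] at phic
      have h1 : (Finset.univ.erase a).card • (-(2 * θ)) ≤ ∑ k ∈ Finset.univ.erase a, M k :=
        Finset.card_nsmul_le_sum _ _ _ fun k _ => Mlow k
      rw [nsmul_eq_mul, Finset.card_erase_of_mem (Finset.mem_univ a), Finset.card_univ, Fintype.card_fin] at h1
      push_cast at h1
      rw [abs_le]
      have hh : N * θ ≤ N ^ 2 * θ := mul_le_mul_of_nonneg_right (le_self_pow₀ (by linarith) two_ne_zero) (by positivity)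
      constructor <;> rw [hN] at * <;> nlinarith [show (0:ℝ) ≤ θ by positivity]
    refine ⟨M, y, yK, fun x hx => ?_, by rw [phi, sub_self, zero_div], fun j => ?_, fun j => ?_⟩
    · rw [phi]; exact div_nonneg (sub_nonneg.2 (hfK x hx)) hden.le
    · by_cases h : a = j
      · subst h; rw [if_pos rfl]; exact Mdiag
      · rw [if_neg h, sub_zero, abs_le]
        have hh : N * θ ≤ N ^ 2 * θ := mul_le_mul_of_nonneg_right (le_self_pow₀ (by linarith) two_ne_zero) (by positivity)
        have hl := Mlow j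
        have hu := Moff j (Ne.symm h)
        have : 2 * θ ≤ N * θ := mul_le_mul_of_nonneg_right N2 (by positivity)
        constructor <;> linarith
    · show |sl_lift y j - fa j| ≤ θ
      rw [hy, hline, show N⁻¹ + t⁻¹ * (fa j - N⁻¹) - fa j = (t⁻¹ - 1) * (fa j - N⁻¹) by ring, abs_mul]
      refine (mul_le_mul (show |t⁻¹ - 1| ≤ θ from ?_) (show |fa j - N⁻¹| ≤ 1 from ?_) (abs_nonneg _) (by positivity)).trans (mul_one θ).le
      · rw [abs_le, ← one_div, le_sub_iff_add_le, le_div_iff₀ t0, sub_le_iff_le_add, div_le_iff₀ t0]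
        constructor <;> linarith
      · have : N⁻¹ ≤ 1 := inv_le_one_of_one_le₀ (by linarith)
        have := inv_pos.2 N0
        rw [abs_le]; constructor <;> linarith [(fa0 j).1, (fa0 j).2]
  choose M y yK hpos hzero hM hy using facet
  set e := 4 * N ^ 2 * θ with he
  have e0 : 0 ≤ e := by positivity
  have hNcast : (((d + 2 : ℕ) : ℝ)) = N := by rw [hN]; push_cast; ring
  have eN : 4 * N * e ≤ 1 := by
    have := (scale 16 4 (by norm_num) (by norm_num) (by norm_num)).trans hsmall
    rw [he, hθ]; linarith [show δ * (16 * N ^ 4) = 4 * N * (4 * N ^ 2 * (N * δ)) by ring]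
  -- the weights
  obtain ⟨w, hw⟩ : ∃ w : Fin (d + 2) → ℝ, ∀ j, ∑ a, w a * M a j = 1 := by
    let T : (Fin (d + 2) → ℝ) →ₗ[ℝ] (Fin (d + 2) → ℝ) := Matrix.toLin' (Matrix.of fun j a => M a j)
    have hT : ∀ w j, T w j = ∑ a, w a * M a j := fun w j => by
      simp [T, Matrix.toLin'_apply, Matrix.mulVec, dotProduct, mul_comm]
    have inj : Function.Injective T := by
      refine (injective_iff_map_eq_zero _).2 fun v hv => ?_
      have := (sl_dominant (fun j a => M a j / N) (p := e) (by rw [hNcast]; linarith)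
        (fun j a => ?_) v).2
      · have z : (fun j => ∑ a, M a j / N * v a) = 0 := funext fun j => by
          have := congrFun hv j
          rw [hT] at this
          rw [Finset.sum_congr rfl fun a _ => show M a j / N * v a = (v a * M a j) / N by ring, ← Finset.sum_div, this]
          simp
        rw [z, norm_zero, mul_zero] at this
        exact norm_le_zero_iff.1 this
      · have h := hM a j
        have e1 : M a j / N - (if j = a then 1 else 0) = (M a j - (if a = j then N else 0)) / N := by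
          by_cases hja : a = j
          · subst hja; simp; field_simp
          · simp [hja, Ne.symm hja]
        rw [e1, abs_div, abs_of_pos N0, div_le_iff₀ N0]
        exact h.trans (by nlinarith)
    obtain ⟨w, hw⟩ := LinearMap.surjective_of_injective inj (fun _ => 1)
    exact ⟨w, fun j => by rw [← hT, hw]⟩
  set W := ‖w‖ with hWdef
  have hwb : ∀ j, |w j - N⁻¹| ≤ e * W := by
    intro j
    have h : N * (w j - N⁻¹) = - ∑ a, w a * (M a j - (if a = j then N else 0)) := by
      simp [mul_sub, Finset.sum_sub_distrib, hw j]; field_simp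
    have h2 : |N * (w j - N⁻¹)| ≤ N * (W * e) := by
      rw [h, abs_neg]
      refine (Finset.abs_sum_le_sum_abs _ _).trans ((Finset.sum_le_sum (g := fun _ => W * e) fun a _ => ?_).trans ?_)
      · rw [abs_mul]; exact mul_le_mul (norm_le_pi_norm w a) (hM a j) (abs_nonneg _) (norm_nonneg _)
      · simp [hN]
    rw [abs_mul, abs_of_pos N0] at h2
    linarith [le_of_mul_le_mul_left h2 N0]
  have hinvN : N⁻¹ ≤ 1/2 := by rw [← one_div]; gcongr
  have e8 : e ≤ 1/8 := by nlinarith
  have W1 : W ≤ 1 := by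
    have : W ≤ N⁻¹ + e * W := (pi_norm_le_iff_of_nonneg (by positivity)).2 fun j => by
      have := abs_le.1 (hwb j)
      rw [Real.norm_eq_abs, abs_le]
      have := inv_pos.2 N0
      constructor <;> linarith
    nlinarith [mul_le_mul_of_nonneg_right e8 (show 0 ≤ W from norm_nonneg w)]
  have hwe : ∀ j, |w j - N⁻¹| ≤ e := fun j => (hwb j).trans (mul_le_of_le_one_right e0 W1)
  have wpos : ∀ j, 0 < w j := fun j => by
    have := (abs_le.1 (hwe j)).1
    have h2 : e * N ≤ 1/4 := by linarith
    have : e ≤ 1/4 * N⁻¹ := by rw [← div_eq_mul_inv, le_div_iff₀ N0]; exact h2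
    linarith [inv_pos.2 N0]
  let P : Fin (d + 2) → Fin (d + 2) → ℝ := fun a j => w a * M a j
  set p := (N + 1) * e with hp
  have pN : N * p ≤ 1/2 := by
    have := (scale 64 5 (by norm_num) (by norm_num) (by norm_num)).trans hsmall
    have h2 : N * p ≤ 2 * N ^ 2 * e := by rw [hp]; nlinarith [mul_le_mul_of_nonneg_right (le_self_pow₀ (by linarith : (1:ℝ) ≤ N) two_ne_zero) e0]
    rw [he, hθ] at h2; linarith [show δ * (64 * N ^ 5) = 8 * (2 * N ^ 2 * (4 * N ^ 2 * (N * δ))) by ring]
  have hP : ∀ a j, |P a j - (if a = j then 1 else 0)| ≤ p := by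
    intro a j
    have e1 : P a j - (if a = j then 1 else 0)
        = w a * (M a j - (if a = j then N else 0)) + (if a = j then N * (w a - N⁻¹) else 0) := by
      simp only [P]
      split_ifs
      · field_simp; ring
      · ring
    rw [e1]
    refine (abs_add_le _ _).trans ?_
    have h1 : |w a * (M a j - (if a = j then N else 0))| ≤ 1 * e := by
      rw [abs_mul]; exact mul_le_mul ((norm_le_pi_norm w a).trans W1) (hM a j) (abs_nonneg _) zero_le_one
    have h2 : |(if a = j then N * (w a - N⁻¹) else 0)| ≤ N * e := by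
      split_ifs
      · rw [abs_mul, abs_of_pos N0]; exact mul_le_mul_of_nonneg_left (hwe a) N0.le
      · simp; positivity
    rw [hp]; linarith
  have hcol : ∀ v : Fin (d + 2) → ℝ, ∑ a, ∑ j, P a j * v j = ∑ j, v j := fun v => by
    rw [Finset.sum_comm]
    exact Finset.sum_congr rfl fun j _ => by simp only [P]; rw [← Finset.sum_mul, hw, one_mul]
  let lin : (Fin (d + 1) → ℝ) →ₗ[ℝ] (Fin (d + 2) → ℝ) :=
    { toFun := fun x => Fin.cons (-∑ i, x i) x
      map_add' := fun x y => by
        funext k; refine Fin.cases ?_ (fun j => ?_) k <;> simp [Finset.sum_add_distrib]; ring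
      map_smul' := fun s x => by
        funext k; refine Fin.cases ?_ (fun j => ?_) k <;> simp [← Finset.mul_sum] }
  let L0 : (Fin (d + 1) → ℝ) →ₗ[ℝ] (Fin (d + 1) → ℝ) :=
    (LinearMap.funLeft ℝ ℝ Fin.succ).comp ((Matrix.toLin' (Matrix.of P)).comp lin)
  have hL0 : ∀ x i, L0 x i = ∑ j, P i.succ j * lin x j := fun x i => by
    simp [L0, LinearMap.funLeft_apply, Matrix.toLin'_apply, Matrix.mulVec, dotProduct]
  have L0inj : Function.Injective L0 := by
    refine (injective_iff_map_eq_zero _).2 fun x hx => ?_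
    have hlin0 : ∑ j, lin x j = 0 := by simp [lin, Fin.sum_univ_succ]
    have z : (fun a => ∑ j, P a j * lin x j) = 0 := by
      funext a
      refine Fin.cases ?_ (fun i => ?_) a
      · have := hcol (lin x)
        rw [hlin0, Fin.sum_univ_succ] at this
        have hrest : ∑ i : Fin (d + 1), ∑ j, P i.succ j * lin x j = 0 :=
          Finset.sum_eq_zero fun i _ => by rw [← hL0, hx]; rfl
        rw [hrest, add_zero] at this
        exact this
      · rw [← hL0, hx]; rfl
    have := (sl_dominant P (by rw [hNcast]; exact pN) hP (lin x)).2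
    rw [z, norm_zero, mul_zero] at this
    have h0 := norm_le_zero_iff.1 this
    funext i
    have := congrFun h0 i.succ
    simpa [lin] using this
  let L := LinearEquiv.ofInjectiveEndo L0 L0inj
  let b : Fin (d + 1) → ℝ := fun i => P i.succ 0
  have hT : ∀ x, sl_lift (L x + b) = fun a => ∑ j, P a j * sl_lift x j := by
    intro x
    have e1 : L x + b = Fin.tail (fun a => ∑ j, P a j * sl_lift x j) := by
      funext i
      simp only [L, LinearEquiv.coe_ofInjectiveEndo, Pi.add_apply, Fin.tail, b]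
      rw [hL0]
      simp [Fin.sum_univ_succ, lin, sl_lift]; ring
    rw [e1]
    exact sl_lift_tail _ (by rw [hcol, sl_lift_sum])
  refine ⟨L, b, ?_, ?_, ?_⟩
  · rintro _ ⟨x, hx, rfl⟩ a
    rw [hT]
    simp only [P, mul_assoc, ← Finset.mul_sum]
    refine mul_nonneg (wpos a).le ?_
    simpa [mul_comm] using hpos a x hx
  · intro x hx
    set z := cc + (1 - η) • (x - cc) with hz
    obtain ⟨x', hx'⟩ : ∃ x', L x' + b = z := ⟨L.symm (z - b), by rw [LinearEquiv.apply_symm_apply, sub_add_cancel]⟩
    refine ⟨x', hinner x' fun i => ?_, hx'⟩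
    have hz1 : ∀ i, |sl_lift z i| ≤ 1 + η ∧ η * N⁻¹ + (1 - η) * sl_lift x i = sl_lift z i := fun i => by
      have e1 : η * N⁻¹ + (1 - η) * sl_lift x i = sl_lift z i := by rw [hz, lift_comb]; ring
      refine ⟨?_, e1⟩
      rw [← e1]
      have h1 := hx i
      have h2 := sl_lift_le_one hx i
      have := inv_pos.2 N0
      rw [abs_le]
      rcases le_total η 1 with h | h
      · constructor <;> nlinarith [mul_nonneg (sub_nonneg.2 h) h1]
      · constructor <;> nlinarith [mul_nonneg (sub_nonneg.2 h) h1, mul_nonneg (sub_nonneg.2 h) (sub_nonneg.2 h2)]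
    obtain ⟨hd1, hd2⟩ := sl_dominant P (by rw [hNcast]; exact pN) hP (sl_lift x')
    rw [hNcast] at hd1
    rw [← hT, hx'] at hd2
    have zb : ‖sl_lift z‖ ≤ 1 + η := (pi_norm_le_iff_of_nonneg (by positivity)).2 fun i => (hz1 i).1
    have hd := hd1 i
    rw [show ∑ j, P i j * sl_lift x' j = sl_lift z i by rw [← hx', hT]] at hd
    have hN2p : N * p ≤ 8 * δ * N ^ 5 := by
      have : N * p ≤ 2 * N ^ 2 * e := by rw [hp]; nlinarith [mul_le_mul_of_nonneg_right (le_self_pow₀ (by linarith : (1:ℝ) ≤ N) two_ne_zero) e0]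
      rw [he, hθ] at this; linarith [show 2 * N ^ 2 * (4 * N ^ 2 * (N * δ)) = 8 * δ * N ^ 5 by ring]
    have hdd : |sl_lift z i - sl_lift x' i| ≤ 8 * δ * N ^ 5 * 4 := by
      refine hd.trans (mul_le_mul hN2p (hd2.trans ?_) (norm_nonneg _) (by positivity))
      linarith
    have := abs_le.1 hdd
    have h1 := mul_nonneg (sub_nonneg.2 hη1) (hx i)
    have hz2 := (hz1 i).2
    have h5 : (32 * N ^ 5 + 1) * δ ≤ η * N⁻¹ := by
      rw [← div_eq_mul_inv, le_div_iff₀ N0]
      have h1 := scale 32 6 (by norm_num) (by norm_num) le_rfl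
      have h2 := scale 1 1 (by norm_num) (by norm_num) (by norm_num)
      have h3 : δ * (33 * N ^ 6) ≤ η := le_trans (scale 33 6 (by norm_num) (by norm_num) le_rfl) hsmη
      have h4 : N ≤ N ^ 6 := le_self_pow₀ (by linarith) (by norm_num)
      have h5 := mul_le_mul_of_nonneg_left h4 δ0.le
      linarith [show (32 * N ^ 5 + 1) * δ * N = 32 * (δ * N ^ 6) + δ * N by ring]
    linarith
  · intro a
    set μ := sl_lift (L (y a) + b) with hμ
    have hμe : μ = fun i => ∑ j, P i j * sl_lift (y a) j := hT _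
    have μa : μ a = 0 := by
      rw [hμe]
      simp only [P, mul_assoc, ← Finset.mul_sum]
      rw [show ∑ j, M a j * sl_lift (y a) j = 0 by simpa [mul_comm] using hzero a, mul_zero]
    set σ := Equiv.swap (0 : Fin (d + 2)) a with hσ
    let q : Fin (d + 1) → ℝ := Fin.tail (μ ∘ σ)
    have hq : (Fin.cons 0 q : Fin (d + 2) → ℝ) = μ ∘ σ := by
      conv_rhs => rw [← Fin.cons_self_tail (μ ∘ σ)]
      simp [q, hσ, μa]
    refine ⟨q, ?_, ?_, ?_⟩
    · have := congrArg (fun l : Fin (d + 2) → ℝ => ∑ i, l i) hq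
      simp [Fin.sum_univ_succ (n := d + 1) (f := Fin.cons (0:ℝ) q)] at this
      rw [this, Equiv.sum_comp σ μ]
      exact sl_lift_sum _
    · refine (pi_norm_le_iff_of_nonneg hη.le).2 fun i => ?_
      set j := σ i.succ with hj
      have hja : j ≠ a := by
        intro h
        have h2 := congrArg σ h
        simp [hj, hσ] at h2
      have hd1 := (sl_dominant P (by rw [hNcast]; exact pN) hP (sl_lift (y a))).1 j
      rw [hNcast] at hd1
      have hyb : ‖sl_lift (y a)‖ ≤ 2 := (pi_norm_le_iff_of_nonneg (by norm_num)).2 fun k => by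
        have := abs_le.1 (hy a k)
        have h2 : (0:ℝ) ≤ (if k = a then 0 else ((d : ℝ) + 1)⁻¹) ∧ (if k = a then 0 else ((d : ℝ) + 1)⁻¹) ≤ (1:ℝ) := by
          split_ifs
          · norm_num
          · exact ⟨by positivity, inv_le_one_of_one_le₀ (by linarith [Nat.cast_nonneg (α := ℝ) d])⟩
        rw [Real.norm_eq_abs, abs_le]; constructor <;> linarith [h2.1, h2.2]
      have h3 := hy a j
      rw [if_neg hja] at h3
      have hqe : (q - sl_c (d + 1)) i = μ j - ((d : ℝ) + 1)⁻¹ := by simp [q, Fin.tail, sl_c, hj]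
      rw [Real.norm_eq_abs, hqe, hμe]
      refine (abs_sub_le _ (sl_lift (y a) j) _).trans ?_
      have hb1 := hd1.trans (mul_le_mul_of_nonneg_left hyb (by positivity))
      have : N * p * 2 + θ ≤ η := by
        have h2 : N * p ≤ 2 * N ^ 2 * e := by rw [hp]; nlinarith [mul_le_mul_of_nonneg_right (le_self_pow₀ (by linarith : (1:ℝ) ≤ N) two_ne_zero) e0]
        rw [he, hθ] at h2
        have h4 : N ≤ N ^ 5 := le_self_pow₀ (by linarith) (by norm_num)
        have h5 := mul_le_mul_of_nonneg_left h4 δ0.le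
        have h6 := (scale 17 5 (by norm_num) (by norm_num) (by norm_num)).trans hsmη
        rw [hθ]; linarith [show 2 * N ^ 2 * (4 * N ^ 2 * (N * δ)) = 8 * (δ * N ^ 5) by ring]
      linarith
    · refine ⟨y a, yK a, ?_⟩
      rw [hq]
      funext i
      simp [Fin.tail, hσ, μ, sl_lift]

end

end Vale.Agent.P254L
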