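import Vale.Agent.P254L.Moments
import Vale.Agent.P254L.Normalise

open MeasureTheory Set

namespace Vale.Agent.P254L

noncomputable section

variable {d n : ℕ}

/-- The affine chart of a simplex with the given vertices. -/
def sl_chart (p : Fin (d + 2) → (Fin (d + 1) → ℝ)) : (Fin (d + 1) → ℝ) →ₗ[ℝ] (Fin (d + 1) → ℝ) where
  toFun x := ∑ i : Fin (d + 1), x i • (p i.succ - p 0)
  map_add' x y := by simp [add_smul, Finset.sum_add_distrib]
  map_smul' a x := by simp [mul_smul, Finset.smul_sum]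

lemma sl_chart_eq (p : Fin (d + 2) → (Fin (d + 1) → ℝ)) (x : Fin (d + 1) → ℝ) :
    sl_chart p x + p 0 = ∑ j, sl_lift x j • p j := by
  simp [sl_chart, Fin.sum_univ_succ (n := d + 1), sl_lift, smul_sub, Finset.sum_sub_distrib, sub_smul,
    ← Finset.sum_smul]
  simp [Fin.sum_univ_succ]
  abel

lemma sl_simplex_param {S : Set (Fin (d + 1) → ℝ)} (hS : IsNSimplex S) :
    ∃ (L : (Fin (d + 1) → ℝ) ≃ₗ[ℝ] (Fin (d + 1) → ℝ)) (b : Fin (d + 1) → ℝ),
      S = (fun x => L x + b) '' sl_S (d + 1) := by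
  obtain ⟨p, hp, rfl⟩ := hS
  have inj : Function.Injective (sl_chart p) := by
    refine (injective_iff_map_eq_zero _).2 fun x hx => ?_
    set w : Fin (d + 2) → ℝ := Fin.cons (-∑ i, x i) x with hw
    have hs : ∑ j, w j = 0 := by simp [hw, Fin.sum_univ_succ]
    have hz : ∑ j, w j • p j = 0 := by
      rw [← hx]
      simp [hw, sl_chart, Fin.sum_univ_succ (n := d + 1), smul_sub, Finset.sum_sub_distrib, ← Finset.sum_smul]
      abel
    have := (affineIndependent_iff.1 hp) Finset.univ w hs hz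
    funext i
    simpa [hw] using this i.succ (Finset.mem_univ _)
  refine ⟨LinearEquiv.ofInjectiveEndo (sl_chart p) inj, p 0, ?_⟩
  simp only [LinearEquiv.coe_ofInjectiveEndo, sl_chart_eq]
  refine Subset.antisymm (convexHull_min ?_ ?_) ?_
  · rintro _ ⟨j, rfl⟩
    have e : sl_lift (Fin.tail (Pi.single j (1:ℝ) : Fin (d + 2) → ℝ)) = Pi.single j 1 :=
      sl_lift_tail _ (by simp)
    refine ⟨Fin.tail (Pi.single j (1:ℝ) : Fin (d + 2) → ℝ), fun i => ?_, ?_⟩
    · rw [e]; by_cases h : i = j <;> simp [h]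
    · simp only [e]; simp [Pi.single_apply, ite_smul]
  · rintro _ ⟨x, hx, rfl⟩ _ ⟨y, hy, rfl⟩ a b ha hb hab
    have e : ∀ j, sl_lift (a • x + b • y) j = a * sl_lift x j + b * sl_lift y j := by
      intro j
      refine Fin.cases ?_ (fun i => ?_) j
      · simp [sl_lift, Finset.sum_add_distrib, ← Finset.mul_sum]; linear_combination -hab
      · simp [sl_lift]
    refine ⟨a • x + b • y, fun j => ?_, ?_⟩
    · rw [e]; exact add_nonneg (mul_nonneg ha (hx j)) (mul_nonneg hb (hy j))
    · simp only [e, add_smul, mul_smul, Finset.sum_add_distrib, Finset.smul_sum]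
  · rintro _ ⟨x, hx, rfl⟩
    exact (convex_convexHull ℝ _).sum_mem (fun j _ => hx j) (sl_lift_sum x)
      fun j _ => subset_convexHull ℝ _ (mem_range_self j)

lemma sl_simplex_image {S : Set (Fin n → ℝ)} (hS : IsNSimplex S)
    (L : (Fin n → ℝ) ≃ₗ[ℝ] (Fin n → ℝ)) (b : Fin n → ℝ) : IsNSimplex ((fun x => L x + b) '' S) := by
  obtain ⟨p, hp, rfl⟩ := hS
  let A : (Fin n → ℝ) →ᵃ[ℝ] (Fin n → ℝ) :=
    (L : (Fin n → ℝ) →ₗ[ℝ] (Fin n → ℝ)).toAffineMap + AffineMap.const ℝ (Fin n → ℝ) b
  have hA : (A : (Fin n → ℝ) → (Fin n → ℝ)) = fun x => L x + b := by funext x; simp [A]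
  refine ⟨A ∘ p, hp.map' A (by rw [hA]; exact fun x y h => L.injective (add_right_cancel h)), ?_⟩
  rw [← hA, range_comp, AffineMap.image_convexHull]

lemma sl_corner_simplex (d : ℕ) : IsNSimplex (sl_S (d + 1)) := by
  refine ⟨fun j => Fin.tail (Pi.single j (1:ℝ) : Fin (d + 2) → ℝ), ?_, ?_⟩
  · refine affineIndependent_iff.2 fun s w hs hz i hi => ?_
    have hc : ∀ k : Fin (d + 1), (if k.succ ∈ s then w k.succ else 0) = 0 := fun k => by
      have := congrFun hz k
      simp [Fin.tail, Pi.single_apply] at this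
      simpa using this
    induction i using Fin.cases with
    | succ k => simpa [hi] using hc k
    | zero =>
      rw [← Finset.add_sum_erase _ _ hi, Finset.sum_eq_zero, add_zero] at hs
      · exact hs
      · intro j hj
        rw [Finset.mem_erase] at hj
        obtain ⟨k, rfl⟩ := Fin.exists_succ_eq_of_ne_zero hj.1
        simpa [hj.2] using hc k
  · refine Subset.antisymm (fun x hx => ?_) (convexHull_min ?_ ?_)
    · have e : x = ∑ j, sl_lift x j • Fin.tail (Pi.single j (1:ℝ) : Fin (d + 2) → ℝ) := by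
        funext i
        simp [Fin.tail, Pi.single_apply, sl_lift]
      rw [e]
      exact (convex_convexHull ℝ _).sum_mem (fun j _ => hx j) (sl_lift_sum x)
        fun j _ => subset_convexHull ℝ _ (mem_range_self j)
    · rintro _ ⟨j, rfl⟩ i
      rw [sl_lift_tail _ (by simp)]
      by_cases h : i = j <;> simp [h]
    · intro x hx y hy a b ha hb hab j
      have e : sl_lift (a • x + b • y) j = a * sl_lift x j + b * sl_lift y j := by
        refine Fin.cases ?_ (fun i => ?_) j
        · simp [sl_lift, Finset.sum_add_distrib, ← Finset.mul_sum]; linear_combination -hab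
        · simp [sl_lift]
      rw [e]; exact add_nonneg (mul_nonneg ha (hx j)) (mul_nonneg hb (hy j))

lemma sl_image_vol_pos {K : Set (Fin n → ℝ)} (hK : IsCompact K) (hi : (interior K).Nonempty)
    (L : (Fin n → ℝ) ≃ₗ[ℝ] (Fin n → ℝ)) (b : Fin n → ℝ) :
    IsCompact ((fun x => L x + b) '' K) ∧ 0 < volume.real ((fun x => L x + b) '' K) := by
  let e : (Fin n → ℝ) ≃ₜ (Fin n → ℝ) :=
    L.toContinuousLinearEquiv.toHomeomorph.trans (Homeomorph.addRight b)
  have he : (fun x => L x + b) = e := rfl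
  refine ⟨he ▸ hK.image e.continuous, ENNReal.toReal_pos (ne_of_gt ?_) (he ▸ hK.image e.continuous).measure_lt_top.ne⟩
  refine lt_of_lt_of_le (isOpen_interior.measure_pos volume ?_) (measure_mono interior_subset)
  rw [he, ← e.image_interior]
  exact hi.image _

/-- Local maximality for the corner simplex. -/
lemma sl_local_corner (d : ℕ) : ∃ ε : ℝ, 0 < ε ∧ ∀ K : Set (Fin (d + 1) → ℝ), Convex ℝ K → IsCompact K →
    (interior K).Nonempty → Metric.hausdorffDist K (sl_S (d + 1)) < ε →
    sl_ratio K < sl_ratio (sl_S (d + 1)) ∨ IsNSimplex K := by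
  obtain ⟨η, η0, η2, hf⟩ := sl_facet d
  obtain ⟨ε, ε0, hn⟩ := sl_normalise d η0 (by linarith)
  refine ⟨ε, ε0, fun K hc hk hi hd => ?_⟩
  obtain ⟨L, b, hsub, hin, htouch⟩ := hn K hc hk (hi.mono interior_subset) hd
  obtain ⟨hk', hv'⟩ := sl_image_vol_pos hk hi L b
  have hc' : Convex ℝ ((fun x => L x + b) '' K) := by
    have h1 := (hc.linear_image (L : (Fin (d + 1) → ℝ) →ₗ[ℝ] (Fin (d + 1) → ℝ))).translate b
    rw [image_image] at h1
    have hcomm : (fun x => L x + b) '' K = (fun x => b + L x) '' K :=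
      image_congr fun x _ => add_comm _ _
    rw [hcomm]
    exact h1
  rcases hf _ hc' hk'.isClosed hsub hin htouch with heq | hW
  · right
    have : K = (fun x => L.symm x + (-L.symm b)) '' sl_S (d + 1) := by
      rw [← heq, image_image]
      simp
    rw [this]
    exact sl_simplex_image (sl_corner_simplex d) L.symm _
  · left
    have := sl_ratio_lt hk' hsub hv' hW
    rwa [sl_ratio_affine hk ?_ L b] at this
    exact ENNReal.toReal_pos (ne_of_gt (lt_of_lt_of_le (isOpen_interior.measure_pos volume hi)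
      (measure_mono interior_subset))) hk.measure_lt_top.ne

lemma sl_ratio_simplex {S : Set (Fin (d + 1) → ℝ)} (hS : IsNSimplex S) :
    sl_ratio S = sl_ratio (sl_S (d + 1)) := by
  obtain ⟨L, b, rfl⟩ := sl_simplex_param hS
  exact sl_ratio_affine sl_S_compact sl_vol_pos L b

/-- Every simplex is a strict local maximiser of the isotropic constant. -/
theorem sl_simplex_local_max {S : Set (Fin (d + 1) → ℝ)} (hS : IsNSimplex S) :
    ∃ ε : ℝ, 0 < ε ∧ ∀ K : Set (Fin (d + 1) → ℝ), Convex ℝ K → IsCompact K → (interior K).Nonempty →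
      Metric.hausdorffDist K S < ε →
      isotropicConstant K ≤ isotropicConstant S ∧
        (isotropicConstant K = isotropicConstant S ↔ IsNSimplex K) := by
  obtain ⟨L, b, hLS⟩ := sl_simplex_param hS
  obtain ⟨ε, ε0, hloc⟩ := sl_local_corner d
  set Ls := L.symm.toContinuousLinearEquiv with hLs
  set C := ‖(Ls : (Fin (d + 1) → ℝ) →L[ℝ] (Fin (d + 1) → ℝ))‖ + 1 with hC
  have C0 : 0 < C := by positivity
  refine ⟨ε / (2 * C), by positivity, fun K hc hk hi hd => ?_⟩
  set g : (Fin (d + 1) → ℝ) → (Fin (d + 1) → ℝ) := fun x => L.symm x + (-L.symm b) with hg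
  have gS : g '' S = sl_S (d + 1) := by rw [hLS, image_image]; simp [hg]
  obtain ⟨hk', hv'⟩ := sl_image_vol_pos hk hi L.symm (-L.symm b)
  have hc' : Convex ℝ (g '' K) := by
    have h1 := (hc.linear_image (L.symm : (Fin (d + 1) → ℝ) →ₗ[ℝ] (Fin (d + 1) → ℝ))).translate (-L.symm b)
    rw [image_image] at h1
    have hcomm : g '' K = (fun x => -L.symm b + L.symm x) '' K :=
      image_congr fun x _ => add_comm _ _
    rw [hcomm]
    exact h1
  have hi' : (interior (g '' K)).Nonempty := by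
    let e : (Fin (d + 1) → ℝ) ≃ₜ (Fin (d + 1) → ℝ) :=
      Ls.toHomeomorph.trans (Homeomorph.addRight (-L.symm b))
    rw [show g = e from rfl, ← e.image_interior]
    exact hi.image _
  have lip : ∀ x y, dist (g x) (g y) ≤ C * dist x y := by
    intro x y
    rw [dist_eq_norm, dist_eq_norm, hg]
    simp only [add_sub_add_right_eq_sub, ← map_sub]
    refine ((Ls : (Fin (d + 1) → ℝ) →L[ℝ] (Fin (d + 1) → ℝ)).le_opNorm (x - y)).trans ?_
    exact mul_le_mul_of_nonneg_right (le_add_of_nonneg_right zero_le_one) (norm_nonneg _)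
  have hScpt : IsCompact S := by
    obtain ⟨p, -, rfl⟩ := hS
    exact (finite_range p).isCompact_convexHull ℝ
  have hSne : S.Nonempty := by
    obtain ⟨p, -, rfl⟩ := hS
    exact ⟨p 0, subset_convexHull ℝ _ (mem_range_self 0)⟩
  have hfin := Metric.hausdorffEDist_ne_top_of_nonempty_of_bounded (hi.mono interior_subset) hSne
    hk.isBounded hScpt.isBounded
  have hd' : Metric.hausdorffDist (g '' K) (sl_S (d + 1)) < ε := by
    refine lt_of_le_of_lt (Metric.hausdorffDist_le_of_mem_dist (r := C * (ε / (2 * C))) (by positivity) ?_ ?_)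
      (by rw [show C * (ε / (2 * C)) = ε / 2 by field_simp]; linarith)
    · rintro _ ⟨x, hx, rfl⟩
      obtain ⟨y, hy, hxy⟩ := Metric.exists_dist_lt_of_hausdorffDist_lt hx hd hfin
      exact ⟨g y, gS ▸ mem_image_of_mem g hy, (lip x y).trans (mul_le_mul_of_nonneg_left hxy.le C0.le)⟩
    · intro y hy
      rw [← gS] at hy
      obtain ⟨y, hy, rfl⟩ := hy
      obtain ⟨x, hx, hxy⟩ := Metric.exists_dist_lt_of_hausdorffDist_lt' hy hd hfin
      exact ⟨g x, mem_image_of_mem g hx, (lip y x).trans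
        (mul_le_mul_of_nonneg_left (by rw [dist_comm]; exact hxy.le) C0.le)⟩
  have hvK : 0 < volume.real K := ENNReal.toReal_pos
    (ne_of_gt (lt_of_lt_of_le (isOpen_interior.measure_pos volume hi) (measure_mono interior_subset)))
    hk.measure_lt_top.ne
  have hSr := sl_ratio_simplex hS
  have hinv : sl_ratio (g '' K) = sl_ratio K := sl_ratio_affine hk hvK L.symm _
  have e : ∀ A : Set (Fin (d + 1) → ℝ), isotropicConstant A = sl_ratio A ^ ((1 : ℝ) / (2 * ((d + 1 : ℕ) : ℝ))) :=
    fun A => rfl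
  rw [e, e]
  rcases hloc _ hc' hk' hi' hd' with h | h
  · rw [hinv, ← hSr] at h
    have hlt := Real.rpow_lt_rpow (sl_ratio_nonneg hk) h
      (show (0 : ℝ) < (1 : ℝ) / (2 * ((d + 1 : ℕ) : ℝ)) by positivity)
    exact ⟨hlt.le, fun he => absurd he hlt.ne, fun hK => absurd ((sl_ratio_simplex hK).trans hSr.symm) h.ne⟩
  · have hK : IsNSimplex K := by
      have e1 : K = (fun x => L x + b) '' (g '' K) := by rw [image_image]; simp [hg]
      rw [e1]
      exact sl_simplex_image h L b
    rw [(sl_ratio_simplex hK).trans hSr.symm]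
    exact ⟨le_rfl, ⟨fun _ => hK, fun _ => rfl⟩⟩

end

end Vale.Agent.P254L
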