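import Vale.Agent.P254L.Chain
import Vale.Agent.P254L.Defs

open MeasureTheory Set Matrix

namespace Vale.Agent.P254L

noncomputable section

variable {d n : ℕ}

/-- The scale invariant ratio inside the isotropic constant. -/
def sl_ratio (K : Set (Fin n → ℝ)) : ℝ := (covarianceOf K).det / volume.real K ^ 2

lemma sl_cint {K : Set (Fin n → ℝ)} (hK : IsCompact K) {f : (Fin n → ℝ) → ℝ} (hf : Continuous f) :
    IntegrableOn f K := hf.continuousOn.integrableOn_compact hK

/-- The mean minimises the mean square deviation. -/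
lemma sl_var_le {K : Set (Fin n → ℝ)} (hK : IsCompact K) (hv : 0 < volume.real K)
    {f : (Fin n → ℝ) → ℝ} (hf : Continuous f) (a : ℝ) :
    ∫ x in K, (f x - (volume.real K)⁻¹ * ∫ y in K, f y) ^ 2 ≤ ∫ x in K, (f x - a) ^ 2 := by
  set μ := (volume.real K)⁻¹ * ∫ y in K, f y with hμ
  have hI : ∫ y in K, f y = volume.real K * μ := by rw [hμ]; field_simp
  have key : ∀ c : ℝ, ∫ x in K, (f x - c) ^ 2
      = (∫ x in K, f x ^ 2) - 2 * c * (volume.real K * μ) + volume.real K * c ^ 2 := fun c => by
    rw [show (fun x => (f x - c) ^ 2) = fun x => f x ^ 2 - 2 * c * f x + c ^ 2 from funext fun x => by ring,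
      integral_add (f := fun x => f x ^ 2 - 2 * c * f x)
        (show Integrable (fun x => f x ^ 2 - 2 * c * f x) (volume.restrict K) from
          sl_cint hK (f := fun x => f x ^ 2 - 2 * c * f x) (by fun_prop))
        (integrableOn_const hK.measure_lt_top.ne),
      integral_sub (sl_cint hK (f := fun x => f x ^ 2) (by fun_prop)) ((sl_cint hK hf).const_mul _),
      integral_const_mul, hI, setIntegral_const, smul_eq_mul]
  rw [key, key]
  nlinarith [mul_nonneg hv.le (sq_nonneg (μ - a))]

lemma sl_cov_posSemidef {K : Set (Fin n → ℝ)} (hK : IsCompact K) :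
    (covarianceOf K).PosSemidef := by
  refine PosSemidef.of_dotProduct_mulVec_nonneg ?_ fun v => ?_
  · ext i j
    simp only [conjTranspose_apply, covarianceOf, of_apply, star_trivial]
    congr 1
    exact integral_congr_ae (Filter.Eventually.of_forall fun x => mul_comm _ _)
  · have e : star v ⬝ᵥ (covarianceOf K) *ᵥ v
        = (volume.real K)⁻¹ * ∫ x in K, (∑ i, v i * (x i - centroidOf K i)) ^ 2 := by
      simp only [star_trivial, dotProduct, mulVec, covarianceOf, of_apply]
      have e1 : (fun x : Fin n → ℝ => (∑ i, v i * (x i - centroidOf K i)) ^ 2)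
          = fun x => ∑ i, ∑ j, v i * v j * ((x i - centroidOf K i) * (x j - centroidOf K j)) := by
        funext x
        rw [sq, Finset.sum_mul_sum]
        exact Finset.sum_congr rfl fun i _ => Finset.sum_congr rfl fun j _ => by ring
      rw [e1, integral_finsetSum _ (fun i _ => sl_cint hK (by fun_prop)), Finset.mul_sum]
      refine Finset.sum_congr rfl fun i _ => ?_
      rw [integral_finsetSum _ (fun j _ => sl_cint hK (by fun_prop)), Finset.mul_sum, Finset.mul_sum]
      refine Finset.sum_congr rfl fun j _ => ?_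
      rw [integral_const_mul]; ring
    rw [e]
    exact mul_nonneg (inv_nonneg.2 measureReal_nonneg) (integral_nonneg fun x => sq_nonneg _)

lemma sl_ratio_nonneg {K : Set (Fin n → ℝ)} (hK : IsCompact K) : 0 ≤ sl_ratio K :=
  div_nonneg (sl_cov_posSemidef hK).det_nonneg (sq_nonneg _)

lemma sl_det_le_exp {A : Matrix (Fin n) (Fin n) ℝ} (hA : A.PosSemidef) :
    A.det ≤ Real.exp (A.trace - n) := by
  rw [hA.1.det_eq_prod_eigenvalues, hA.1.trace_eq_sum_eigenvalues]
  simp only [RCLike.ofReal_real_eq_id, id_eq]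
  rw [show ∑ i, hA.1.eigenvalues i - (n : ℝ) = ∑ i, (hA.1.eigenvalues i - 1) by simp, Real.exp_sum]
  exact Finset.prod_le_prod (fun i _ => hA.eigenvalues_nonneg i)
    fun i _ => by linarith [Real.add_one_le_exp (hA.1.eigenvalues i - 1)]

/-- `|x - c|²` in the metric of the inverse covariance of the corner simplex. -/
def sl_Q (d : ℕ) (l : Fin (d + 2) → ℝ) : ℝ :=
  ((d : ℝ) + 2) * ((d : ℝ) + 3) * ∑ i, l i ^ 2 - ((d : ℝ) + 3)

lemma sl_Q_chart (x : Fin (d + 1) → ℝ) :
    sl_Q d (sl_lift x) = ((d : ℝ) + 2) * ((d : ℝ) + 3) *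
      ((∑ i, (x i - ((d : ℝ) + 2)⁻¹) ^ 2) + ((∑ i, x i) - ((d : ℝ) + 1) * ((d : ℝ) + 2)⁻¹) ^ 2) := by
  simp only [sl_Q, Fin.sum_univ_succ (n := d + 1), sl_lift, Fin.cons_zero, Fin.cons_succ, sub_sq,
    Finset.sum_add_distrib, Finset.sum_sub_distrib, ← Finset.mul_sum, ← Finset.sum_mul]
  simp
  field_simp
  ring

lemma sl_simplex_moments :
    (∀ a : Fin (d + 2), sl_int (d + 1) (fun l => l a) = volume.real (sl_S (d + 1)) / ((d : ℝ) + 2)) ∧
    (∀ a b : Fin (d + 2), sl_int (d + 1) (fun l => l a * l b) = volume.real (sl_S (d + 1)) *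
      (if a = b then 2 else 1) / (((d : ℝ) + 2) * ((d : ℝ) + 3))) ∧
    sl_int (d + 1) (sl_Q d) = ((d : ℝ) + 1) * volume.real (sl_S (d + 1)) := by
  set V := volume.real (sl_S (d + 1)) with hV
  have first : ∀ a : Fin (d + 2), sl_int (d + 1) (fun l => l a) = V / ((d : ℝ) + 2) := by
    intro a
    have hs : ∀ b, sl_int (d + 1) (fun l => l b) = sl_int (d + 1) (fun l => l a) := fun b => by
      rw [← sl_int_perm (Equiv.swap a b) (fun l => l a)]
      simp
    have : ∑ b : Fin (d + 2), sl_int (d + 1) (fun l => l b) = V := by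
      rw [← sl_int_sum Finset.univ (fun (b : Fin (d + 2)) l => l b) (fun b _ => continuous_apply b),
        sl_int_congr (H := fun _ => 1) (fun l _ hl => hl), sl_int_const, mul_one]
    rw [Finset.sum_congr rfl (fun b _ => hs b)] at this
    simp at this
    rw [eq_div_iff (by positivity)]
    linarith
  have hg := sl_gap_eq (d := d) (U := fun _ => (1:ℝ)) continuous_const (fun _ _ => rfl)
  rw [sl_pairGap_one, mul_zero] at hg
  simp only [one_mul] at hg
  rw [sl_int_sub (by fun_prop) continuous_const, sl_int_const, ← hV, sl_int_mul] at hg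
  have hS : sl_int (d + 1) (fun l : Fin (d + 2) → ℝ => ∑ i, l i ^ 2) = 2 * V / ((d : ℝ) + 3) := by
    rw [eq_div_iff (by positivity)]; linarith
  have sq : ∀ a : Fin (d + 2), sl_int (d + 1) (fun l => l a ^ 2)
      = V * 2 / (((d : ℝ) + 2) * ((d : ℝ) + 3)) := by
    intro a
    have hs : ∀ b, sl_int (d + 1) (fun l => l b ^ 2) = sl_int (d + 1) (fun l => l a ^ 2) := fun b => by
      rw [← sl_int_perm (Equiv.swap a b) (fun l => l a ^ 2)]
      simp
    have := hS
    rw [sl_int_sum Finset.univ (fun (b : Fin (d + 2)) l => l b ^ 2) (fun b _ => by fun_prop),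
      Finset.sum_congr rfl (fun b _ => hs b)] at this
    simp at this
    field_simp at this ⊢
    linarith
  have cross : ∀ a b : Fin (d + 2), a ≠ b → sl_int (d + 1) (fun l => l a * l b)
      = V / (((d : ℝ) + 2) * ((d : ℝ) + 3)) := by
    intro a b hab
    have hs : ∀ c, c ≠ a → sl_int (d + 1) (fun l => l a * l c) = sl_int (d + 1) (fun l => l a * l b) := by
      intro c hc
      rw [← sl_int_perm (Equiv.swap b c) (fun l => l a * l b)]
      simp [Equiv.swap_apply_of_ne_of_ne hab hc.symm]
    have htot : ∑ c : Fin (d + 2), sl_int (d + 1) (fun l => l a * l c) = V / ((d : ℝ) + 2) := by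
      rw [← sl_int_sum Finset.univ (fun (c : Fin (d + 2)) l => l a * l c) (fun c _ => by fun_prop), ← first a]
      exact sl_int_congr fun l _ hl => by rw [← Finset.mul_sum, hl, mul_one]
    rw [← Finset.add_sum_erase _ _ (Finset.mem_univ a),
      Finset.sum_congr rfl (fun c hc => hs c (Finset.ne_of_mem_erase hc))] at htot
    simp only [Finset.sum_const, Finset.card_erase_of_mem (Finset.mem_univ a), Finset.card_univ,
      Fintype.card_fin, nsmul_eq_mul] at htot
    rw [show (fun l : Fin (d + 2) → ℝ => l a * l a) = fun l => l a ^ 2 from funext fun l => (pow_two (l a)).symm, sq a] at htot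
    push_cast at htot
    field_simp at htot ⊢
    nlinarith
  refine ⟨first, fun a b => ?_, ?_⟩
  · split_ifs with h
    · subst h
      rw [show (fun l : Fin (d + 2) → ℝ => l a * l a) = fun l => l a ^ 2 from funext fun l => (pow_two (l a)).symm, sq a]
    · rw [cross a b h, mul_one]
  · unfold sl_Q
    rw [sl_int_sub (by fun_prop) continuous_const, sl_int_mul, sl_int_const, hS, ← hV]
    field_simp
    ring

lemma sl_centroid_S (i : Fin (d + 1)) : centroidOf (sl_S (d + 1)) i = ((d : ℝ) + 2)⁻¹ := by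
  have e : ∫ x in sl_S (d + 1), x i = sl_int (d + 1) (fun l => l i.succ) :=
    integral_congr_ae (Filter.Eventually.of_forall fun x => by simp [sl_lift])
  rw [centroidOf, e, sl_simplex_moments.1]
  field_simp [(sl_vol_pos (d := d + 1)).ne']

/-- The inverse covariance matrix of the corner simplex. -/
def sl_A (d : ℕ) : Matrix (Fin (d + 1)) (Fin (d + 1)) ℝ :=
  Matrix.of fun i j => ((d : ℝ) + 2) * ((d : ℝ) + 3) * ((if i = j then 1 else 0) + 1)

/-- A square root of `sl_A`. -/
def sl_B (d : ℕ) : Matrix (Fin (d + 1)) (Fin (d + 1)) ℝ :=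
  Matrix.of fun i j => Real.sqrt (((d : ℝ) + 2) * ((d : ℝ) + 3)) *
    ((if i = j then 1 else 0) + (Real.sqrt ((d : ℝ) + 2) - 1) / ((d : ℝ) + 1))

lemma sl_B_sq : (sl_B d)ᴴ * sl_B d = sl_A d := by
  ext i j
  have h1 := Real.mul_self_sqrt (show 0 ≤ ((d : ℝ) + 2) * ((d : ℝ) + 3) by positivity)
  have h2 := Real.mul_self_sqrt (show 0 ≤ (d : ℝ) + 2 by positivity)
  simp only [mul_apply, conjTranspose_apply, star_trivial, sl_B, sl_A, of_apply]
  set β := (Real.sqrt ((d : ℝ) + 2) - 1) / ((d : ℝ) + 1) with hβ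
  have hb : 2 * β + ((d : ℝ) + 1) * β ^ 2 = 1 := by rw [hβ]; field_simp; nlinarith
  rw [Finset.sum_congr rfl fun k _ => show
      Real.sqrt (((d : ℝ) + 2) * ((d : ℝ) + 3)) * ((if k = i then 1 else 0) + β) *
        (Real.sqrt (((d : ℝ) + 2) * ((d : ℝ) + 3)) * ((if k = j then 1 else 0) + β))
      = ((d : ℝ) + 2) * ((d : ℝ) + 3) * ((if k = i then 1 else 0) * (if k = j then 1 else 0)
          + β * (if k = i then 1 else 0) + β * (if k = j then 1 else 0) + β ^ 2) by
    linear_combination (((if k = i then (1:ℝ) else 0) + β) * ((if k = j then (1:ℝ) else 0) + β)) * h1]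
  rw [← Finset.mul_sum, Finset.sum_add_distrib, Finset.sum_add_distrib, Finset.sum_add_distrib]
  simp
  left
  rcases eq_or_ne i j with rfl | hne
  · simp; linarith
  · simp [hne, hne.symm]; linarith

lemma sl_A_cov_S : sl_A d * covarianceOf (sl_S (d + 1)) = 1 := by
  obtain ⟨m1, m2, -⟩ := sl_simplex_moments (d := d)
  have V0 := sl_vol_pos (d := d + 1)
  set V := volume.real (sl_S (d + 1)) with hV
  have hC : ∀ i j : Fin (d + 1), covarianceOf (sl_S (d + 1)) i j
      = ((if i = j then 1 else 0) - ((d : ℝ) + 2)⁻¹) / (((d : ℝ) + 2) * ((d : ℝ) + 3)) := by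
    intro i j
    have e : ∫ x in sl_S (d + 1), (x i - ((d : ℝ) + 2)⁻¹) * (x j - ((d : ℝ) + 2)⁻¹)
        = sl_int (d + 1) (fun l => l i.succ * l j.succ + (-((d : ℝ) + 2)⁻¹) * l i.succ
          + ((-((d : ℝ) + 2)⁻¹) * l j.succ + ((d : ℝ) + 2)⁻¹ * ((d : ℝ) + 2)⁻¹)) :=
      integral_congr_ae (Filter.Eventually.of_forall fun x => by simp [sl_lift]; ring)
    simp only [covarianceOf, of_apply, sl_centroid_S]
    rw [e, sl_int_add (by fun_prop) (by fun_prop), sl_int_add (by fun_prop) (by fun_prop),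
      sl_int_add (by fun_prop) continuous_const, sl_int_mul, sl_int_mul, sl_int_const, m1, m1, m2, ← hV]
    by_cases h : i = j <;> simp [h] <;> field_simp <;> ring
  ext i j
  simp only [mul_apply, sl_A, of_apply, hC, one_apply]
  rw [Finset.sum_congr rfl fun k _ => show
      ((d : ℝ) + 2) * ((d : ℝ) + 3) * ((if i = k then 1 else 0) + 1) *
        (((if k = j then 1 else 0) - ((d : ℝ) + 2)⁻¹) / (((d : ℝ) + 2) * ((d : ℝ) + 3)))
      = (if i = k then 1 else 0) * (if k = j then 1 else 0) - (if i = k then ((d : ℝ) + 2)⁻¹ else 0)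
        + (if k = j then 1 else 0) - ((d : ℝ) + 2)⁻¹ by split_ifs <;> field_simp <;> ring]
  simp only [Finset.sum_sub_distrib, Finset.sum_add_distrib]
  simp
  field_simp
  ring

/-- Comparison with the corner simplex for a body inside it. -/
lemma sl_ratio_lt {K : Set (Fin (d + 1) → ℝ)} (hK : IsCompact K) (hKS : K ⊆ sl_S (d + 1))
    (hv : 0 < volume.real K)
    (hW : 0 < ∫ x in sl_S (d + 1) \ K, ((d : ℝ) + 3) * (((d : ℝ) + 2) * ∑ i, sl_lift x i ^ 2 - 2)) :
    sl_ratio K < sl_ratio (sl_S (d + 1)) := by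
  set V := volume.real (sl_S (d + 1)) with hV
  set Kv := volume.real K with hKv
  have V0 : 0 < V := sl_vol_pos
  set N2 := ((d : ℝ) + 2) with hN2
  set k := N2 * ((d : ℝ) + 3) with hk
  have k0 : 0 < k := by positivity
  set b := centroidOf K with hb
  -- the trace
  have htr : (sl_A d * covarianceOf K).trace ≤ Kv⁻¹ * ∫ x in K, sl_Q d (sl_lift x) := by
    have e : (sl_A d * covarianceOf K).trace = k * (Kv⁻¹ *
        ((∑ i, ∫ x in K, (x i - b i) ^ 2) + ∫ x in K, ((∑ i, x i) - ∑ i, b i) ^ 2)) := by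
      have e1 : ∫ x in K, ((∑ i, x i) - ∑ i, b i) ^ 2
          = ∑ i, ∑ j, ∫ x in K, (x j - b j) * (x i - b i) := by
        rw [show (fun x : Fin (d + 1) → ℝ => ((∑ i, x i) - ∑ i, b i) ^ 2)
            = fun x => ∑ i, ∑ j, (x j - b j) * (x i - b i) from funext fun x => by
          rw [← Finset.sum_sub_distrib, sq, Finset.sum_mul_sum]
          exact Finset.sum_congr rfl fun i _ => Finset.sum_congr rfl fun j _ => mul_comm _ _,
          integral_finsetSum _ (fun i _ => sl_cint hK (by fun_prop))]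
        exact Finset.sum_congr rfl fun i _ => integral_finsetSum _ (fun j _ => sl_cint hK (by fun_prop))
      rw [e1, ← Finset.sum_add_distrib, Finset.mul_sum, Finset.mul_sum]
      simp only [trace, Matrix.diag, mul_apply, sl_A, of_apply, covarianceOf, ← hb, ← hKv, ← hN2, ← hk]
      refine Finset.sum_congr rfl fun i _ => ?_
      rw [Finset.sum_congr rfl fun j _ => show k * ((if i = j then 1 else 0) + 1) *
          (Kv⁻¹ * ∫ x in K, (x j - b j) * (x i - b i))
          = (if i = j then k * (Kv⁻¹ * ∫ x in K, (x j - b j) * (x i - b i)) else 0)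
            + k * (Kv⁻¹ * ∫ x in K, (x j - b j) * (x i - b i)) by split_ifs <;> ring]
      rw [Finset.sum_add_distrib, Finset.sum_ite_eq, if_pos (Finset.mem_univ i), ← Finset.mul_sum, ← Finset.mul_sum]
      simp only [← pow_two]
      ring
    rw [e]
    have hsum : ∑ i, b i = Kv⁻¹ * ∫ x in K, ∑ i, x i := by
      rw [integral_finsetSum _ (fun i _ => sl_cint hK (continuous_apply i)), Finset.mul_sum]
      rfl
    have v1 : ∀ i, ∫ x in K, (x i - b i) ^ 2 ≤ ∫ x in K, (x i - N2⁻¹) ^ 2 := fun i =>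
      sl_var_le hK hv (continuous_apply i) _
    have v2 : ∫ x in K, ((∑ i, x i) - ∑ i, b i) ^ 2
        ≤ ∫ x in K, ((∑ i, x i) - ((d : ℝ) + 1) * N2⁻¹) ^ 2 := by
      rw [hsum]
      exact sl_var_le hK hv (by fun_prop) _
    simp only [sl_Q_chart, ← hN2, ← hk]
    rw [integral_const_mul, integral_add (sl_cint hK (by fun_prop)) (sl_cint hK (by fun_prop)),
      integral_finsetSum _ (fun i _ => sl_cint hK (by fun_prop)), mul_left_comm Kv⁻¹ k]
    exact mul_le_mul_of_nonneg_left (mul_le_mul_of_nonneg_left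
      (add_le_add (Finset.sum_le_sum fun i _ => v1 i) v2) (inv_nonneg.2 hv.le)) k0.le
  -- determinants
  have hdet : (sl_A d).det * (covarianceOf (sl_S (d + 1))).det = 1 := by
    rw [← det_mul, sl_A_cov_S, det_one]
  have hdA : (sl_A d).det = (sl_B d).det * (sl_B d).det := by
    rw [← sl_B_sq, det_mul, det_conjTranspose, star_trivial]
  have hdA0 : 0 < (sl_A d).det := by
    have h0 : 0 ≤ (sl_A d).det := hdA ▸ mul_self_nonneg _
    rcases h0.eq_or_lt with h | h
    · rw [← h, zero_mul] at hdet; exact absurd hdet zero_ne_one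
    · exact h
  have hexp : (sl_A d).det * (covarianceOf K).det
      ≤ Real.exp (Kv⁻¹ * (∫ x in K, sl_Q d (sl_lift x)) - ((d : ℝ) + 1)) := by
    have hp := (sl_cov_posSemidef hK).mul_mul_conjTranspose_same (sl_B d)
    have := sl_det_le_exp hp
    rw [det_mul, det_mul, det_conjTranspose, star_trivial, trace_mul_comm, ← mul_assoc, sl_B_sq] at this
    refine le_trans ?_ (this.trans (Real.exp_le_exp.2 ?_))
    · rw [hdA]; exact le_of_eq (by ring)
    · push_cast; linarith
  -- the removed region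
  have hQS := (sl_simplex_moments (d := d)).2.2
  have hcont : Continuous fun x : Fin (d + 1) → ℝ => sl_Q d (sl_lift x) := by
    have := sl_lift_cont (d := d + 1); unfold sl_Q; fun_prop
  have iS : IntegrableOn (fun x => sl_Q d (sl_lift x)) (sl_S (d + 1)) := sl_cint sl_S_compact hcont
  have hsplit : (∫ x in sl_S (d + 1) \ K, sl_Q d (sl_lift x)) + ∫ x in K, sl_Q d (sl_lift x)
      = ((d : ℝ) + 1) * V := by
    rw [← setIntegral_union disjoint_sdiff_left hK.measurableSet (iS.mono_set sdiff_subset) (sl_cint hK hcont),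
      sdiff_union_of_subset hKS]
    exact hQS
  have hwv : volume.real (sl_S (d + 1) \ K) = V - Kv :=
    measureReal_sdiff hKS hK.measurableSet sl_S_finite.ne
  have hlow : ((d : ℝ) + 3) * (V - Kv) < ∫ x in sl_S (d + 1) \ K, sl_Q d (sl_lift x) := by
    have e : (fun x : Fin (d + 1) → ℝ => ((d : ℝ) + 3) * (((d : ℝ) + 2) * ∑ i, sl_lift x i ^ 2 - 2))
        = fun x => sl_Q d (sl_lift x) - ((d : ℝ) + 3) := funext fun x => by unfold sl_Q; ring
    rw [e, integral_sub (iS.mono_set sdiff_subset) (integrableOn_const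
      (ne_top_of_le_ne_top sl_S_finite.ne (measure_mono sdiff_subset))), setIntegral_const, smul_eq_mul, hwv] at hW
    linarith
  have hlog : Kv⁻¹ * (∫ x in K, sl_Q d (sl_lift x)) - ((d : ℝ) + 1) < 2 * Real.log (Kv / V) := by
    have hl := Real.one_sub_inv_le_log_of_pos (div_pos hv V0)
    rw [inv_div] at hl
    have : Kv⁻¹ * (∫ x in K, sl_Q d (sl_lift x)) - ((d : ℝ) + 1) < 2 * (1 - V / Kv) := by
      field_simp
      nlinarith
    linarith
  have hfin : Real.exp (Kv⁻¹ * (∫ x in K, sl_Q d (sl_lift x)) - ((d : ℝ) + 1)) < (Kv / V) ^ 2 := by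
    refine (Real.exp_lt_exp.2 hlog).trans_le (le_of_eq ?_)
    rw [show 2 * Real.log (Kv / V) = Real.log ((Kv / V) ^ 2) by rw [Real.log_pow]; norm_num,
      Real.exp_log (pow_pos (div_pos hv V0) 2)]
  have hS : (covarianceOf (sl_S (d + 1))).det = 1 / (sl_A d).det := by
    rw [eq_div_iff hdA0.ne']; linarith [hdet, mul_comm (sl_A d).det (covarianceOf (sl_S (d + 1))).det]
  have hlt := hexp.trans_lt hfin
  simp only [sl_ratio, ← hV, ← hKv, hS]
  rw [div_div, div_lt_div_iff₀ (pow_pos hv 2) (mul_pos hdA0 (pow_pos V0 2))]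
  rw [div_pow, lt_div_iff₀ (pow_pos V0 2)] at hlt
  linarith [show (covarianceOf K).det * ((sl_A d).det * V ^ 2) = (sl_A d).det * (covarianceOf K).det * V ^ 2 by ring]

/-- Affine invariance of the isotropic ratio. -/
lemma sl_ratio_affine {K : Set (Fin n → ℝ)} (hK : IsCompact K) (hv : 0 < volume.real K)
    (L : (Fin n → ℝ) ≃ₗ[ℝ] (Fin n → ℝ)) (c : Fin n → ℝ) :
    sl_ratio ((fun x => L x + c) '' K) = sl_ratio K := by
  set M := LinearMap.toMatrix' (L : (Fin n → ℝ) →ₗ[ℝ] (Fin n → ℝ)) with hM
  set Lc := (L : (Fin n → ℝ) →ₗ[ℝ] (Fin n → ℝ)).toContinuousLinearMap with hLc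
  set δ := |LinearMap.det (L : (Fin n → ℝ) →ₗ[ℝ] (Fin n → ℝ))| with hδ
  have δ0 : 0 < δ := abs_pos.2 (L.isUnit_det'.ne_zero)
  have happ : ∀ x i, L x i = ∑ j, M i j * x j := by
    intro x i
    have : L x = M *ᵥ x := by rw [hM, LinearMap.toMatrix'_mulVec]; rfl
    rw [this]; rfl
  have hcov : ∀ g : (Fin n → ℝ) → ℝ, ∫ x in (fun x => L x + c) '' K, g x = δ * ∫ x in K, g (L x + c) := by
    intro g
    rw [integral_image_eq_integral_abs_det_fderiv_smul volume hK.measurableSet
      (f := fun x => L x + c) (f' := fun _ => Lc)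
      (fun x _ => (Lc.hasFDerivAt.add_const c).hasFDerivWithinAt)
      (fun a _ b _ h => L.injective (add_right_cancel h))]
    rw [integral_smul, smul_eq_mul]
    rfl
  have hvol : volume.real ((fun x => L x + c) '' K) = δ * volume.real K := by
    have := hcov (fun _ => 1)
    simpa [setIntegral_const] using this
  have hcen : ∀ i, centroidOf ((fun x => L x + c) '' K) i = ∑ j, M i j * centroidOf K j + c i := by
    intro i
    simp only [centroidOf, hvol, hcov, Pi.add_apply, happ]
    rw [integral_add (sl_cint hK (by fun_prop)) (integrableOn_const hK.measure_lt_top.ne),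
      integral_finsetSum _ (fun j _ => sl_cint hK (by fun_prop)), setIntegral_const, smul_eq_mul]
    simp only [integral_const_mul]
    have : ∑ j, M i j * ((volume.real K)⁻¹ * ∫ x in K, x j) = (volume.real K)⁻¹ * ∑ j, M i j * ∫ x in K, x j := by
      rw [Finset.mul_sum]; exact Finset.sum_congr rfl fun j _ => by ring
    rw [this]
    field_simp
  have hcovm : covarianceOf ((fun x => L x + c) '' K) = M * covarianceOf K * Mᵀ := by
    ext i j
    simp only [covarianceOf, of_apply, hvol, hcov, hcen, mul_apply, transpose_apply, Pi.add_apply, happ]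
    have e : (fun x : Fin n → ℝ => ((∑ k, M i k * x k) + c i - ((∑ k, M i k * centroidOf K k) + c i)) *
        ((∑ k, M j k * x k) + c j - ((∑ k, M j k * centroidOf K k) + c j)))
        = fun x => ∑ l, ∑ k, M i k * M j l * ((x k - centroidOf K k) * (x l - centroidOf K l)) := by
      funext x
      rw [add_sub_add_right_eq_sub, add_sub_add_right_eq_sub, ← Finset.sum_sub_distrib, ← Finset.sum_sub_distrib,
        Finset.sum_mul_sum, Finset.sum_comm]
      exact Finset.sum_congr rfl fun l _ => Finset.sum_congr rfl fun k _ => by ring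
    rw [e, integral_finsetSum _ (fun l _ => sl_cint hK (by fun_prop)), Finset.mul_sum, Finset.mul_sum]
    refine Finset.sum_congr rfl fun l _ => ?_
    rw [integral_finsetSum _ (fun k _ => sl_cint hK (by fun_prop)), Finset.mul_sum, Finset.mul_sum, Finset.sum_mul]
    refine Finset.sum_congr rfl fun k _ => ?_
    rw [integral_const_mul]
    field_simp
  rw [sl_ratio, sl_ratio, hcovm, hvol, det_mul, det_mul, det_transpose]
  have : M.det ^ 2 = δ ^ 2 := by rw [hδ, sq_abs, hM, LinearMap.det_toMatrix']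
  rw [show M.det * (covarianceOf K).det * M.det = M.det ^ 2 * (covarianceOf K).det by ring, this, mul_pow,
    mul_div_mul_left _ _ (pow_ne_zero 2 δ0.ne')]

end

end Vale.Agent.P254L
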