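import Mathlib

open MeasureTheory Set Filter
open scoped Topology

namespace Vale.Agent.P254L

noncomputable section

/-- First order bound from a derivative bound. -/
lemma sl_abs_le_of_deriv {F F' : ℝ → ℝ} (hF : ∀ x, HasDerivAt F (F' x) x) (hF0 : F 0 = 0)
    {C h : ℝ} (h0 : 0 ≤ h) (hC : ∀ x ∈ Icc 0 h, |F' x| ≤ C) : |F h| ≤ C * h := by
  have := Convex.norm_image_sub_le_of_norm_hasDerivWithin_le (𝕜 := ℝ) (f := F) (f' := F')
    (s := Icc (0:ℝ) h) (fun x _ => (hF x).hasDerivWithinAt)
    (fun x hx => by simpa [Real.norm_eq_abs] using hC x hx) (convex_Icc 0 h)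
    (left_mem_Icc.2 h0) (right_mem_Icc.2 h0)
  simpa [hF0, Real.norm_eq_abs, abs_of_nonneg h0] using this

/-- A convex function integrates nonnegatively against the second derivative of a nonnegative
function vanishing to second order at both endpoints. -/
lemma sl_convex_integral_second_deriv (f : ℝ → ℝ) (hf : ConvexOn ℝ univ f)
    (p p1 p2 p3 : ℝ → ℝ) (hp : ∀ x, HasDerivAt p (p1 x) x) (hp1 : ∀ x, HasDerivAt p1 (p2 x) x)
    (hp2 : ∀ x, HasDerivAt p2 (p3 x) x) (hp3 : Continuous p3) {T : ℝ} (hT : 0 ≤ T)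
    (hpos : ∀ x ∈ Icc 0 T, 0 ≤ p x) (hp0 : p 0 = 0) (hp10 : p1 0 = 0)
    (hpT : p T = 0) (hp1T : p1 T = 0) :
    0 ≤ ∫ x in (0:ℝ)..T, f x * p2 x := by
  have fc : Continuous f := continuousOn_univ.1 (hf.continuousOn isOpen_univ)
  have pc : Continuous p := continuous_iff_continuousAt.2 fun x => (hp x).continuousAt
  have p2c : Continuous p2 := continuous_iff_continuousAt.2 fun x => (hp2 x).continuousAt
  obtain ⟨A, hA⟩ := (isCompact_Icc (a := (-1:ℝ)) (b := T+1)).exists_bound_of_continuousOn p2c.continuousOn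
  obtain ⟨B, hB⟩ := (isCompact_Icc (a := (-1:ℝ)) (b := T+1)).exists_bound_of_continuousOn hp3.continuousOn
  obtain ⟨M, hM⟩ := (isCompact_Icc (a := (-1:ℝ)) (b := T+1)).exists_bound_of_continuousOn fc.continuousOn
  simp only [Real.norm_eq_abs] at hA hB hM
  have A0 : 0 ≤ A := le_trans (abs_nonneg _) (hA 0 ⟨by norm_num, by linarith⟩)
  have B0 : 0 ≤ B := le_trans (abs_nonneg _) (hB 0 ⟨by norm_num, by linarith⟩)
  have M0 : 0 ≤ M := le_trans (abs_nonneg _) (hM 0 ⟨by norm_num, by linarith⟩)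
  set L := ∫ x in (0:ℝ)..T, f x * p2 x with hL
  set C := 4 * (M * A) + 2 * B * M * T with hCdef
  have key : ∀ h, 0 < h → h ≤ 1 → 0 ≤ L + C * h := by
    intro h h0 h1
    have hend : ∀ e, (e = 0 ∨ e = T) → ∀ s, |s| ≤ h → |p (e + s)| ≤ A * h ^ 2 := by
      intro e he s hs
      have hpe : p e = 0 ∧ p1 e = 0 := by rcases he with rfl | rfl <;> exact ⟨by assumption, by assumption⟩
      have he' : e ∈ Icc 0 T := by rcases he with rfl | rfl <;> simp [hT]
      have hsub : ∀ y, |y - e| ≤ h → y ∈ Icc (-1:ℝ) (T+1) := by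
        intro y hy
        rw [abs_le] at hy
        exact ⟨by linarith [he'.1, hy.1], by linarith [he'.2, hy.2]⟩
      have hd : ∀ y ∈ Metric.closedBall e h, ‖p1 y‖ ≤ A * h := by
        intro y hy
        have := Convex.norm_image_sub_le_of_norm_hasDerivWithin_le (𝕜 := ℝ) (f := p1) (f' := p2)
          (s := Metric.closedBall e h) (fun z _ => (hp1 z).hasDerivWithinAt)
          (fun z hz => by
            rw [Real.norm_eq_abs]; exact hA z (hsub z (by simpa [Real.dist_eq] using hz)))
          (convex_closedBall e h) (Metric.mem_closedBall_self h0.le) hy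
        rw [hpe.2, sub_zero] at this
        refine this.trans (mul_le_mul_of_nonneg_left ?_ A0)
        simpa [Real.dist_eq] using hy
      have := Convex.norm_image_sub_le_of_norm_hasDerivWithin_le (𝕜 := ℝ) (f := p) (f' := p1)
          (s := Metric.closedBall e h) (fun z _ => (hp z).hasDerivWithinAt) hd
          (convex_closedBall e h) (Metric.mem_closedBall_self h0.le)
          (show e + s ∈ Metric.closedBall e h by simpa [Real.dist_eq] using hs)
      rw [hpe.1, sub_zero, add_sub_cancel_left, Real.norm_eq_abs, Real.norm_eq_abs] at this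
      nlinarith [mul_le_mul_of_nonneg_left hs (mul_nonneg A0 h0.le)]
    have htay : ∀ x ∈ Icc 0 T, |p (x + h) + p (x - h) - 2 * p x - h ^ 2 * p2 x| ≤ 2 * B * h ^ 3 := by
      intro x hx
      let F : ℝ → ℝ := fun t => p (x + t) + p (x - t) - 2 * p x - t ^ 2 * p2 x
      let F1 : ℝ → ℝ := fun t => p1 (x + t) - p1 (x - t) - 2 * t * p2 x
      let F2 : ℝ → ℝ := fun t => p2 (x + t) + p2 (x - t) - 2 * p2 x
      let F3 : ℝ → ℝ := fun t => p3 (x + t) - p3 (x - t)
      have a1 : ∀ t : ℝ, HasDerivAt (fun t => x + t) 1 t := fun t => (hasDerivAt_id t).const_add x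
      have a2 : ∀ t : ℝ, HasDerivAt (fun t => x - t) (-1) t := fun t => (hasDerivAt_id t).const_sub x
      have dF : ∀ t, HasDerivAt F (F1 t) t := fun t => by
        refine ((((hp (x+t)).comp t (a1 t)).add ((hp (x-t)).comp t (a2 t))).sub_const (2 * p x)
          |>.sub ((hasDerivAt_pow 2 t).mul_const (p2 x))).congr_deriv ?_
        simp [F1]; ring
      have dF1 : ∀ t, HasDerivAt F1 (F2 t) t := fun t => by
        refine ((((hp1 (x+t)).comp t (a1 t)).sub ((hp1 (x-t)).comp t (a2 t)))
          |>.sub (((hasDerivAt_id t).const_mul 2).mul_const (p2 x))).congr_deriv ?_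
        simp [F2]
      have dF2 : ∀ t, HasDerivAt F2 (F3 t) t := fun t => by
        refine (((hp2 (x+t)).comp t (a1 t)).add ((hp2 (x-t)).comp t (a2 t))).sub_const (2 * p2 x)
          |>.congr_deriv ?_
        simp [F3]; ring
      have b3 : ∀ t ∈ Icc 0 h, |F3 t| ≤ 2 * B := by
        intro t ht
        have u1 := hB (x+t) ⟨by linarith [hx.1, ht.1], by linarith [hx.2, ht.2]⟩
        have u2 := hB (x-t) ⟨by linarith [hx.1, ht.2], by linarith [hx.2, ht.1]⟩
        exact (abs_sub _ _).trans (by linarith)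
      have b2 : ∀ t ∈ Icc 0 h, |F2 t| ≤ 2 * B * h := by
        intro t ht
        refine (sl_abs_le_of_deriv dF2 (by simp [F2]; ring) ht.1
          (fun z hz => b3 z ⟨hz.1, hz.2.trans ht.2⟩)).trans ?_
        exact mul_le_mul_of_nonneg_left ht.2 (by positivity)
      have b1 : ∀ t ∈ Icc 0 h, |F1 t| ≤ 2 * B * h * h := by
        intro t ht
        refine (sl_abs_le_of_deriv dF1 (by simp [F1]) ht.1
          (fun z hz => b2 z ⟨hz.1, hz.2.trans ht.2⟩)).trans ?_
        exact mul_le_mul_of_nonneg_left ht.2 (by positivity)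
      have := sl_abs_le_of_deriv dF (by simp [F]; ring) h0.le b1
      simp only [F] at this
      linarith [this, show 2 * B * h * h * h = 2 * B * h ^ 3 by ring]
    -- nonnegativity of the second difference
    have hnn : 0 ≤ ∫ x in (0:ℝ)..T, p x * (f (x + h) + f (x - h) - 2 * f x) := by
      refine intervalIntegral.integral_nonneg hT fun x hx => mul_nonneg (hpos x hx) ?_
      have := hf.2 (mem_univ (x + h)) (mem_univ (x - h)) (show (0:ℝ) ≤ 1/2 by norm_num)
        (show (0:ℝ) ≤ 1/2 by norm_num) (by norm_num)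
      simp only [smul_eq_mul] at this
      rw [show 1/2 * (x+h) + 1/2 * (x-h) = x by ring] at this
      linarith
    have ii : ∀ (g : ℝ → ℝ), Continuous g → ∀ a b, IntervalIntegrable g volume a b :=
      fun g hg a b => hg.intervalIntegrable a b
    let P : ℝ → ℝ := fun x => p (x - h) * f x
    let Q : ℝ → ℝ := fun x => p (x + h) * f x
    let R : ℝ → ℝ := fun x => p x * f x
    have Pc : Continuous P := by fun_prop
    have Qc : Continuous Q := by fun_prop
    have Rc : Continuous R := by fun_prop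
    have e1 : ∫ x in (0:ℝ)..T, p x * f (x + h)
        = (∫ x in (0:ℝ)..T, P x) + (∫ x in T..(T+h), P x) - ∫ x in (0:ℝ)..h, P x := by
      have := intervalIntegral.integral_comp_add_right P h (a := 0) (b := T)
      simp only [P, add_sub_cancel_right, zero_add] at this
      rw [this]
      have u1 := intervalIntegral.integral_add_adjacent_intervals (ii P Pc 0 h) (ii P Pc h (T+h))
      have u2 := intervalIntegral.integral_add_adjacent_intervals (ii P Pc 0 T) (ii P Pc T (T+h))
      simp only [P] at u1 u2 ⊢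
      linarith
    have e2 : ∫ x in (0:ℝ)..T, p x * f (x - h)
        = (∫ x in (0:ℝ)..T, Q x) + (∫ x in (-h)..(0:ℝ), Q x) - ∫ x in (T-h)..T, Q x := by
      have := intervalIntegral.integral_comp_sub_right Q h (a := 0) (b := T)
      simp only [Q, sub_add_cancel, zero_sub] at this
      rw [this]
      have u1 := intervalIntegral.integral_add_adjacent_intervals (ii Q Qc (-h) (T-h)) (ii Q Qc (T-h) T)
      have u2 := intervalIntegral.integral_add_adjacent_intervals (ii Q Qc (-h) 0) (ii Q Qc 0 T)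
      simp only [Q] at u1 u2 ⊢
      linarith
    have e3 : ∫ x in (0:ℝ)..T, p x * (f (x + h) + f (x - h) - 2 * f x)
        = (∫ x in (0:ℝ)..T, p x * f (x + h)) + (∫ x in (0:ℝ)..T, p x * f (x - h))
          - 2 * ∫ x in (0:ℝ)..T, R x := by
      rw [← intervalIntegral.integral_add (ii _ (by fun_prop) _ _) (ii _ (by fun_prop) _ _),
        ← intervalIntegral.integral_const_mul,
        ← intervalIntegral.integral_sub (ii _ (by fun_prop) _ _) (ii _ (by fun_prop) _ _)]
      exact intervalIntegral.integral_congr fun x _ => by simp only [R]; ring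
    have e4 : (∫ x in (0:ℝ)..T, P x) + (∫ x in (0:ℝ)..T, Q x) - 2 * ∫ x in (0:ℝ)..T, R x
        = h ^ 2 * L + ∫ x in (0:ℝ)..T, f x * (p (x + h) + p (x - h) - 2 * p x - h ^ 2 * p2 x) := by
      rw [hL, ← intervalIntegral.integral_add (ii _ Pc _ _) (ii _ Qc _ _),
        ← intervalIntegral.integral_const_mul, ← intervalIntegral.integral_const_mul,
        ← intervalIntegral.integral_sub (ii _ (by fun_prop) _ _) (ii _ (by fun_prop) _ _),
        ← intervalIntegral.integral_add (ii _ (by fun_prop) _ _) (ii _ (by fun_prop) _ _)]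
      exact intervalIntegral.integral_congr fun x _ => by simp only [P, Q, R]; ring
    have bd : ∀ (g : ℝ → ℝ) (a b K : ℝ), a ≤ b → (∀ x ∈ Icc a b, |g x| ≤ K) →
        |∫ x in a..b, g x| ≤ K * (b - a) := by
      intro g a b K hab hg
      have := intervalIntegral.norm_integral_le_of_norm_le_const (f := g) (a := a) (b := b) (C := K)
        (fun x hx => by
          rw [uIoc_of_le hab] at hx
          simpa [Real.norm_eq_abs] using hg x ⟨hx.1.le, hx.2⟩)
      rwa [abs_of_nonneg (sub_nonneg.2 hab), Real.norm_eq_abs] at this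
    have pb : ∀ x y, x ∈ Icc (-1:ℝ) (T+1) → |p y| ≤ A * h ^ 2 → |p y * f x| ≤ A * h ^ 2 * M := by
      intro x y hx hy
      rw [abs_mul]
      exact mul_le_mul hy (hM x hx) (abs_nonneg _) (by positivity)
    have c1 : |∫ x in T..(T+h), P x| ≤ A * h ^ 2 * M * h := by
      refine (bd P T (T+h) (A * h ^ 2 * M) (by linarith) fun x hx => pb x (x - h)
        ⟨by linarith [hx.1], by linarith [hx.2]⟩ ?_).trans (le_of_eq (by ring))
      have := hend T (Or.inr rfl) (x - h - T) (abs_le.2 ⟨by linarith [hx.1], by linarith [hx.2]⟩)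
      simpa using this
    have c2 : |∫ x in (0:ℝ)..h, P x| ≤ A * h ^ 2 * M * h := by
      refine (bd P 0 h (A * h ^ 2 * M) h0.le fun x hx => pb x (x - h)
        ⟨by linarith [hx.1], by linarith [hx.2]⟩ ?_).trans (le_of_eq (by ring))
      have := hend 0 (Or.inl rfl) (x - h) (abs_le.2 ⟨by linarith [hx.1], by linarith [hx.2]⟩)
      simpa using this
    have c3 : |∫ x in (-h)..(0:ℝ), Q x| ≤ A * h ^ 2 * M * h := by
      refine (bd Q (-h) 0 (A * h ^ 2 * M) (by linarith) fun x hx => pb x (x + h)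
        ⟨by linarith [hx.1], by linarith [hx.2]⟩ ?_).trans (le_of_eq (by ring))
      have := hend 0 (Or.inl rfl) (x + h) (abs_le.2 ⟨by linarith [hx.1], by linarith [hx.2]⟩)
      simpa using this
    have c4 : |∫ x in (T-h)..T, Q x| ≤ A * h ^ 2 * M * h := by
      refine (bd Q (T-h) T (A * h ^ 2 * M) (by linarith) fun x hx => pb x (x + h)
        ⟨by linarith [hx.1], by linarith [hx.2]⟩ ?_).trans (le_of_eq (by ring))
      have := hend T (Or.inr rfl) (x + h - T) (abs_le.2 ⟨by linarith [hx.1], by linarith [hx.2]⟩)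
      simpa using this
    have c5 : |∫ x in (0:ℝ)..T, f x * (p (x + h) + p (x - h) - 2 * p x - h ^ 2 * p2 x)|
        ≤ M * (2 * B * h ^ 3) * T := by
      refine (bd _ 0 T (M * (2 * B * h ^ 3)) hT fun x hx => ?_).trans (le_of_eq (by ring))
      rw [abs_mul]
      exact mul_le_mul (hM x ⟨by linarith [hx.1], by linarith [hx.2]⟩) (htay x hx) (abs_nonneg _) M0
    have hfin : 0 ≤ h ^ 2 * (L + C * h) := by
      have := abs_le.1 c1; have := abs_le.1 c2; have := abs_le.1 c3; have := abs_le.1 c4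
      have := abs_le.1 c5
      rw [e3, e1, e2] at hnn
      rw [hCdef]
      nlinarith
    exact nonneg_of_mul_nonneg_right hfin (by positivity)
  by_contra hneg
  have hneg' : L < 0 := not_le.1 hneg
  have C0 : 0 ≤ C := by positivity
  have hh := key (min 1 (-L / (2 * (C + 1)))) (lt_min one_pos (div_pos (by linarith) (by linarith)))
    (min_le_left _ _)
  have h3 : C * min 1 (-L / (2 * (C + 1))) ≤ C * (-L / (2 * (C + 1))) :=
    mul_le_mul_of_nonneg_left (min_le_right _ _) C0
  have h4 : C * (-L / (2 * (C + 1))) < -L := by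
    rw [mul_div_assoc', div_lt_iff₀ (by linarith)]; nlinarith
  linarith

/-- `t ^ k (T - t) ^ l / (k! l!)`. -/
def sl_e (k l : ℕ) (T t : ℝ) : ℝ := (t ^ k / k.factorial) * ((T - t) ^ l / l.factorial)

/-- The derivative of `sl_e k l`. -/
def sl_de : ℕ → ℕ → ℝ → ℝ → ℝ
  | 0, 0, _, _ => 0
  | k + 1, 0, T, t => sl_e k 0 T t
  | 0, l + 1, T, t => - sl_e 0 l T t
  | k + 1, l + 1, T, t => sl_e k (l + 1) T t - sl_e (k + 1) l T t

lemma sl_e_hasDeriv (k l : ℕ) (T t : ℝ) : HasDerivAt (sl_e k l T) (sl_de k l T t) t := by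
  have hk : HasDerivAt (fun t : ℝ => t ^ k / k.factorial)
      ((k : ℝ) * t ^ (k-1) / k.factorial) t := (hasDerivAt_pow k t).div_const _
  have hl : HasDerivAt (fun t : ℝ => (T - t) ^ l / l.factorial)
      (-((l : ℝ) * (T - t) ^ (l-1)) / l.factorial) t :=
    ((((hasDerivAt_id t).const_sub T).pow l).div_const _).congr_deriv (by simp)
  refine (hk.mul hl).congr_deriv ?_
  rcases k with _ | k <;> rcases l with _ | l <;>
    simp only [sl_de, sl_e, Nat.factorial_succ, Nat.cast_mul, Nat.cast_zero, Nat.add_sub_cancel,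
      Nat.cast_add, Nat.cast_one, Nat.factorial_zero, pow_zero] <;>
    field_simp <;> ring

/-- The second derivative of `sl_e (i + 2) (j + 2)`. -/
def sl_D (i j : ℕ) (T t : ℝ) : ℝ :=
  sl_e i (j + 2) T t - 2 * sl_e (i + 1) (j + 1) T t + sl_e (i + 2) j T t

lemma sl_e_endpoints (i j : ℕ) (T : ℝ) :
    sl_e (i+1) (j+1) T 0 = 0 ∧ sl_e (i+1) (j+1) T T = 0 := by
  simp [sl_e]

lemma sl_e_nonneg (k l : ℕ) {T t : ℝ} (h0 : 0 ≤ t) (h1 : t ≤ T) : 0 ≤ sl_e k l T t := by
  have : 0 ≤ T - t := sub_nonneg.2 h1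
  unfold sl_e; positivity

lemma sl_e_cont (k l : ℕ) (T : ℝ) : Continuous (sl_e k l T) := by unfold sl_e; fun_prop

lemma sl_de_cont (k l : ℕ) (T : ℝ) : Continuous (sl_de k l T) := by
  rcases k with _ | k <;> rcases l with _ | l
  · exact continuous_const
  · exact (sl_e_cont 0 l T).neg
  · exact sl_e_cont k 0 T
  · exact (sl_e_cont k (l+1) T).sub (sl_e_cont (k+1) l T)

/-- Positivity of the pair weight, and domination by the basic pair weight. -/
lemma sl_pair_fibre (f : ℝ → ℝ) (hf : ConvexOn ℝ univ f) (i j : ℕ) {T r : ℝ} (hT : 0 ≤ T)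
    (hT1 : T ≤ 1) (hr : 0 ≤ r) (hr1 : r ≤ 1) :
    0 ≤ r * ∫ t in (0:ℝ)..T, f t * sl_D i j T t ∧
    (r * ∫ t in (0:ℝ)..T, f t * sl_D i j T t) ≤ 4 * ∫ t in (0:ℝ)..T, f t * sl_D 0 0 T t := by
  have d1 : ∀ a b x, HasDerivAt (sl_e (a+2) (b+2) T)
      (sl_e (a+1) (b+2) T x - sl_e (a+2) (b+1) T x) x := fun a b x => sl_e_hasDeriv (a+2) (b+2) T x
  have d2 : ∀ a b x, HasDerivAt (fun x => sl_e (a+1) (b+2) T x - sl_e (a+2) (b+1) T x)
      (sl_D a b T x) x := fun a b x =>
    ((sl_e_hasDeriv (a+1) (b+2) T x).sub (sl_e_hasDeriv (a+2) (b+1) T x)).congr_deriv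
      (by simp only [sl_de, sl_D]; ring)
  have d3 : ∀ a b x, HasDerivAt (sl_D a b T)
      (sl_de a (b+2) T x - 2 * sl_de (a+1) (b+1) T x + sl_de (a+2) b T x) x := fun a b x =>
    ((sl_e_hasDeriv a (b+2) T x).sub ((sl_e_hasDeriv (a+1) (b+1) T x).const_mul 2)).add
      (sl_e_hasDeriv (a+2) b T x)
  have c3 : ∀ a b, Continuous fun x =>
      sl_de a (b+2) T x - 2 * sl_de (a+1) (b+1) T x + sl_de (a+2) b T x := fun a b =>
    ((sl_de_cont _ _ T).sub ((sl_de_cont _ _ T).const_mul 2)).add (sl_de_cont _ _ T)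
  have z0 : ∀ a b, sl_e (a+2) (b+2) T 0 = 0 ∧ sl_e (a+2) (b+2) T T = 0 :=
    fun a b => sl_e_endpoints (a+1) (b+1) T
  have z1 : ∀ a b, (sl_e (a+1) (b+2) T 0 - sl_e (a+2) (b+1) T 0 = 0) ∧
      (sl_e (a+1) (b+2) T T - sl_e (a+2) (b+1) T T = 0) := fun a b => by
    simp [(sl_e_endpoints a (b+1) T).1, (sl_e_endpoints a (b+1) T).2,
      (sl_e_endpoints (a+1) b T).1, (sl_e_endpoints (a+1) b T).2]
  constructor
  · refine mul_nonneg hr (sl_convex_integral_second_deriv f hf _ _ _ _ (d1 i j) (d2 i j) (d3 i j)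
      (c3 i j) hT (fun x hx => sl_e_nonneg _ _ hx.1 hx.2) (z0 i j).1 (z1 i j).1 (z0 i j).2 (z1 i j).2)
  · have hdom : ∀ x ∈ Icc 0 T, r * sl_e (i+2) (j+2) T x ≤ 4 * sl_e 2 2 T x := by
      intro x hx
      have hs : 0 ≤ T - x := sub_nonneg.2 hx.2
      have a1 : x ^ (i+2) / ((i+2).factorial : ℝ) ≤ x ^ 2 := by
        refine (div_le_self (pow_nonneg hx.1 _) (Nat.one_le_cast.2 (Nat.factorial_pos _))).trans ?_
        exact pow_le_pow_of_le_one hx.1 (hx.2.trans hT1) (Nat.le_add_left 2 i)
      have a2 : (T - x) ^ (j+2) / ((j+2).factorial : ℝ) ≤ (T - x) ^ 2 := by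
        refine (div_le_self (pow_nonneg hs _) (Nat.one_le_cast.2 (Nat.factorial_pos _))).trans ?_
        exact pow_le_pow_of_le_one hs (by linarith [hx.1]) (Nat.le_add_left 2 j)
      have a3 : 4 * sl_e 2 2 T x = x ^ 2 * (T - x) ^ 2 := by simp [sl_e, Nat.factorial]; ring
      rw [a3]
      refine (mul_le_of_le_one_left (sl_e_nonneg _ _ hx.1 hx.2) hr1).trans ?_
      unfold sl_e
      exact mul_le_mul a1 a2 (by positivity) (sq_nonneg _)
    have h := sl_convex_integral_second_deriv f hf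
      (fun x => 4 * sl_e 2 2 T x - r * sl_e (i+2) (j+2) T x) _ _ _
      (fun x => ((d1 0 0 x).const_mul 4).sub ((d1 i j x).const_mul r))
      (fun x => ((d2 0 0 x).const_mul 4).sub ((d2 i j x).const_mul r))
      (fun x => ((d3 0 0 x).const_mul 4).sub ((d3 i j x).const_mul r))
      (((c3 0 0).const_mul 4).sub ((c3 i j).const_mul r)) hT
      (fun x hx => sub_nonneg.2 (hdom x hx))
      (by simp [(z0 i j).1, (z0 0 0).1])
      (by simp only [(z1 i j).1, (z1 0 0).1]; ring)
      (by simp [(z0 i j).2, (z0 0 0).2])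
      (by simp only [(z1 i j).2, (z1 0 0).2]; ring)
    have fc : Continuous f := continuousOn_univ.1 (hf.continuousOn isOpen_univ)
    have Dc : ∀ a b, Continuous (sl_D a b T) := fun a b =>
      continuous_iff_continuousAt.2 fun x => (d3 a b x).continuousAt
    rw [show (fun x => f x * (4 * sl_D 0 0 T x - r * sl_D i j T x))
        = fun x => 4 * (f x * sl_D 0 0 T x) - r * (f x * sl_D i j T x) from funext fun x => by ring,
      intervalIntegral.integral_sub
        ((show Continuous (fun x => 4 * (f x * sl_D 0 0 T x)) from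
          (fc.mul (Dc 0 0)).const_mul 4).intervalIntegrable _ _)
        ((show Continuous (fun x => r * (f x * sl_D i j T x)) from
          (fc.mul (Dc i j)).const_mul r).intervalIntegrable _ _),
      intervalIntegral.integral_const_mul, intervalIntegral.integral_const_mul] at h
    linarith

end

end Vale.Agent.P254L
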